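import Vale.Agent.P134P.Calc

/-! # P134: linearised equation, Picone identity, Caccioppoli and stability inequalities -/

set_option linter.unusedSectionVars false

open scoped BigOperators RealInnerProductSpace
open Filter Topology MeasureTheory

namespace Vale.Agent.P134P

variable {E : Type*} [NormedAddCommGroup E] [InnerProductSpace ℝ E] [FiniteDimensional ℝ E]
  [MeasurableSpace E] [BorelSpace E]
  {ι : Type*} [Fintype ι]

/-- Weak form of `Δ v = c v`. -/
def WeakLin (b : OrthonormalBasis ι ℝ E) (c v : E → ℝ) : Prop :=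
  ∀ φ : E → ℝ, ContDiff ℝ 1 φ → HasCompactSupport φ →
    ∫ x, gdot b v φ x = - ∫ x, c x * v x * φ x

theorem fderiv_shift {G : E → ℝ} (a : E) (x : E) :
    fderiv ℝ (fun y => G (y + a)) x = fderiv ℝ G (x + a) := fderiv_comp_add_right a

/-- Every directional derivative solves the linearised equation weakly. -/
theorem weak_dd {b : OrthonormalBasis ι ℝ E} {u : E → ℝ} (hu : IsSol b u) (e : E) :
    WeakLin b (fun x => acC (u x)) (dd u e) := by
  intro φ hφ hc
  have hu1 : ContDiff ℝ 1 u := hu.smooth.of_le (by norm_num)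
  have hF : ContDiff ℝ 1 (fun x => acF (u x)) := by
    unfold acF
    exact (hu1.pow 3).sub hu1
  -- the two sides as functions of the shift
  have hleft : HasDerivAt
      (fun h : ℝ => ∑ i, ∫ x, dd u (b i) (x + h • e) * fderiv ℝ φ x (b i))
      (∑ i, ∫ x, fderiv ℝ (dd u (b i)) (x + (0 : ℝ) • e) e * fderiv ℝ φ x (b i)) 0 :=
    HasDerivAt.fun_sum fun i _ => hasDerivAt_integral_shift (contDiff_dd hu.smooth (b i))
      (continuous_fderiv_apply' hφ (b i)) (hasCompactSupport_fderiv_apply hc (b i)) e 0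
  have hright : HasDerivAt (fun h : ℝ => - ∫ x, acF (u (x + h • e)) * φ x)
      (- ∫ x, fderiv ℝ (fun y => acF (u y)) (x + (0 : ℝ) • e) e * φ x) 0 :=
    (hasDerivAt_integral_shift hF hφ.continuous hc e 0).neg
  have heq : (fun h : ℝ => ∑ i, ∫ x, dd u (b i) (x + h • e) * fderiv ℝ φ x (b i))
      = fun h : ℝ => - ∫ x, acF (u (x + h • e)) * φ x := by
    funext h
    have h1 : ∀ i, ContDiff ℝ 1 (fun x => dd u (b i) (x + h • e)) := fun i =>
      (contDiff_dd hu.smooth (b i)).comp (contDiff_id.add contDiff_const)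
    have h2 : ∀ i, ∫ x, dd u (b i) (x + h • e) * fderiv ℝ φ x (b i)
        = - ∫ x, hs u (x + h • e) (b i) (b i) * φ x := by
      intro i
      have := ibp (h1 i) hφ hc (b i)
      simp only [fderiv_shift (G := dd u (b i)), fderiv_dd hu.smooth] at this
      linarith
    simp only [h2, Finset.sum_neg_distrib]
    rw [← integral_finsetSum]
    · congr 1
      refine integral_congr_ae (Filter.Eventually.of_forall fun x => ?_)
      simp only [← Finset.sum_mul, hu.eqn]
    · intro i _
      exact integrable_mul_cs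
        ((continuous_hs hu.smooth (b i) (b i)).comp (by fun_prop)) hφ.continuous hc
  rw [heq] at hleft
  have key := hleft.unique hright
  simp only [zero_smul, add_zero] at key
  have hc' : ∀ x, fderiv ℝ (fun y => acF (u y)) x e = acC (u x) * dd u e x := by
    intro x
    have h3 := (hasDerivAt_acF (u x)).comp_hasFDerivAt x
      ((hu1.differentiable one_ne_zero) x).hasFDerivAt
    rw [show (fun y => acF (u y)) = acF ∘ u from rfl, h3.fderiv]
    simp [dd]
  simp only [hc', fderiv_dd hu.smooth] at key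
  rw [← key]
  unfold gdot
  rw [integral_finsetSum]
  · refine Finset.sum_congr rfl fun i _ => ?_
    refine integral_congr_ae (Filter.Eventually.of_forall fun x => ?_)
    simp only [fderiv_dd hu.smooth, hs_symm hu.smooth x (b i) e]
  · intro i _
    exact integrable_mul_cs (continuous_fderiv_apply' (contDiff_dd hu.smooth e) (b i))
      (continuous_fderiv_apply' hφ (b i)) (hasCompactSupport_fderiv_apply hc (b i))

/-- The Picone remainder `∇w - (w / v) ∇v`, component `i`. -/
noncomputable def pic (b : OrthonormalBasis ι ℝ E) (v w : E → ℝ) (i : ι) (x : E) : ℝ :=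
  fderiv ℝ w x (b i) - w x / v x * fderiv ℝ v x (b i)

/-- Squared norm of the Picone remainder. -/
noncomputable def picSq (b : OrthonormalBasis ι ℝ E) (v w : E → ℝ) (x : E) : ℝ :=
  ∑ i, (pic b v w i x) ^ 2

theorem continuous_picSq (b : OrthonormalBasis ι ℝ E) {v w : E → ℝ} (hv : ContDiff ℝ 1 v)
    (hw : ContDiff ℝ 1 w) (hpos : ∀ x, 0 < v x) : Continuous (picSq b v w) :=
  continuous_finsetSum _ fun i _ =>
    ((continuous_fderiv_apply' hw (b i)).sub
      ((hw.continuous.div hv.continuous fun x => (hpos x).ne').mul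
        (continuous_fderiv_apply' hv (b i)))).pow 2

theorem hasCompactSupport_sq {ζ : E → ℝ} (hc : HasCompactSupport ζ) :
    HasCompactSupport (fun x => ζ x ^ 2) := by
  have : (fun x => ζ x ^ 2) = ζ * ζ := by funext x; simp [sq]
  rw [this]
  exact hc.mul_left

theorem hasCompactSupport_gsq (b : OrthonormalBasis ι ℝ E) {ζ : E → ℝ}
    (hc : HasCompactSupport ζ) : HasCompactSupport (gsq b ζ) := by
  refine (hc.fderiv (𝕜 := ℝ)).mono ?_
  intro x hx h0
  apply hx
  simp [gsq, h0]

/-- Picone inequality. -/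
theorem picone (b : OrthonormalBasis ι ℝ E) {c v w ζ : E → ℝ} (hv : ContDiff ℝ 1 v)
    (hw : ContDiff ℝ 1 w) (hζ : ContDiff ℝ 1 ζ) (hc : HasCompactSupport ζ)
    (hpos : ∀ x, 0 < v x) (hwv : WeakLin b c v) (hww : WeakLin b c w) :
    ∫ x, ζ x ^ 2 * picSq b v w x ≤ 4 * ∫ x, w x ^ 2 * gsq b ζ x := by
  set φ₁ : E → ℝ := fun x => ζ x ^ 2 * (w x ^ 2 / v x) with hφ₁
  set φ₂ : E → ℝ := fun x => ζ x ^ 2 * w x with hφ₂
  have hne : ∀ x, v x ≠ 0 := fun x => (hpos x).ne'
  have h1 : ContDiff ℝ 1 φ₁ := (hζ.pow 2).mul ((hw.pow 2).div hv hne)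
  have h2 : ContDiff ℝ 1 φ₂ := (hζ.pow 2).mul hw
  have h1c : HasCompactSupport φ₁ := (hasCompactSupport_sq hc).mul_right
  have h2c : HasCompactSupport φ₂ := (hasCompactSupport_sq hc).mul_right
  have e1 := hwv φ₁ h1 h1c
  have e2 := hww φ₂ h2 h2c
  have hsame : (fun x => c x * v x * φ₁ x) = fun x => c x * w x * φ₂ x := by
    funext x
    simp only [hφ₁, hφ₂]
    field_simp [hne x]
  rw [hsame, ← e2] at e1
  -- pointwise expansion
  have hpt : ∀ x, gdot b w φ₂ x - gdot b v φ₁ x
      = ζ x ^ 2 * picSq b v w x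
        + ∑ i, 2 * ζ x * w x * fderiv ℝ ζ x (b i) * pic b v w i x := by
    intro x
    have dζ := ((hζ.differentiable one_ne_zero) x).hasFDerivAt
    have dw := ((hw.differentiable one_ne_zero) x).hasFDerivAt
    have dv := ((hv.differentiable one_ne_zero) x).hasFDerivAt
    have dinv := (hasDerivAt_inv (hne x)).comp_hasFDerivAt x dv
    have d1 := (dζ.mul dζ).mul ((dw.mul dw).mul dinv)
    have d2 := (dζ.mul dζ).mul dw
    have f1 : φ₁ = ζ * ζ * (w * w * ((fun y => y⁻¹) ∘ v)) := by
      funext y; simp [hφ₁, sq, div_eq_mul_inv, mul_assoc]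
    have f2 : φ₂ = ζ * ζ * w := by funext y; simp [hφ₂, sq]
    unfold gdot picSq
    rw [f1, f2, d1.fderiv, d2.fderiv, Finset.mul_sum, ← Finset.sum_sub_distrib,
      ← Finset.sum_add_distrib]
    refine Finset.sum_congr rfl fun i _ => ?_
    simp only [pic, ContinuousLinearMap.add_apply, ContinuousLinearMap.smul_apply,
      Pi.mul_apply, Function.comp_apply, smul_eq_mul]
    field_simp [hne x]
    ring
  have hint1 : Integrable (gdot b v φ₁) :=
    integrable_finsetSum _ fun i _ => integrable_mul_cs (continuous_fderiv_apply' hv (b i))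
      (continuous_fderiv_apply' h1 (b i)) (hasCompactSupport_fderiv_apply h1c (b i))
  have hint2 : Integrable (gdot b w φ₂) :=
    integrable_finsetSum _ fun i _ => integrable_mul_cs (continuous_fderiv_apply' hw (b i))
      (continuous_fderiv_apply' h2 (b i)) (hasCompactSupport_fderiv_apply h2c (b i))
  have hint3 : Integrable (fun x => ζ x ^ 2 * picSq b v w x) :=
    ((hζ.continuous.pow 2).mul (continuous_picSq b hv hw hpos)).integrable_of_hasCompactSupport
      (hasCompactSupport_sq hc).mul_right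
  have hint4 : Integrable (fun x => w x ^ 2 * gsq b ζ x) :=
    integrable_mul_cs (hw.continuous.pow 2) (continuous_gsq b hζ) (hasCompactSupport_gsq b hc)
  have hzero : ∫ x, (gdot b w φ₂ x - gdot b v φ₁ x) = 0 := by
    rw [integral_sub hint2 hint1, e1, sub_self]
  have hlow : ∀ x, ζ x ^ 2 * picSq b v w x / 2 - 2 * (w x ^ 2 * gsq b ζ x)
      ≤ gdot b w φ₂ x - gdot b v φ₁ x := by
    intro x
    rw [hpt x]
    simp only [picSq, gsq, Finset.mul_sum, Finset.sum_div, ← Finset.sum_sub_distrib,
      ← Finset.sum_add_distrib]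
    refine Finset.sum_le_sum fun i _ => ?_
    nlinarith [sq_nonneg (ζ x * pic b v w i x + 2 * w x * fderiv ℝ ζ x (b i))]
  have := integral_mono ((hint3.div_const 2).sub (hint4.const_mul 2)) (hint2.sub hint1) hlow
  simp only [Pi.sub_apply] at this
  rw [hzero, integral_sub (hint3.div_const 2) (hint4.const_mul 2), integral_div,
    integral_const_mul] at this
  linarith

/-- Caccioppoli inequality for `log v`, and stability. -/
theorem log_cacc (b : OrthonormalBasis ι ℝ E) {c v ζ : E → ℝ} (hcc : Continuous c)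
    (hv : ContDiff ℝ 1 v) (hζ : ContDiff ℝ 1 ζ) (hc : HasCompactSupport ζ)
    (hpos : ∀ x, 0 < v x) (hwv : WeakLin b c v) :
    (0 ≤ (∫ x, c x * ζ x ^ 2) + ∫ x, gsq b ζ x) ∧
    (∫ x, ζ x ^ 2 * (gsq b v x / v x ^ 2)
      ≤ 2 * (∫ x, |c x| * ζ x ^ 2) + 4 * ∫ x, gsq b ζ x) := by
  set φ : E → ℝ := fun x => ζ x ^ 2 / v x with hφd
  have hne : ∀ x, v x ≠ 0 := fun x => (hpos x).ne'
  have h1 : ContDiff ℝ 1 φ := (hζ.pow 2).div hv hne
  have h1c : HasCompactSupport φ := by
    have : φ = (fun x => ζ x ^ 2) * fun x => (v x)⁻¹ := by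
      funext x; simp [hφd, div_eq_mul_inv]
    rw [this]
    exact (hasCompactSupport_sq hc).mul_right
  have e1 := hwv φ h1 h1c
  have hsame : (fun x => c x * v x * φ x) = fun x => c x * ζ x ^ 2 := by
    funext x
    simp only [hφd]
    field_simp [hne x]
  rw [hsame] at e1
  have hpt : ∀ x, gdot b v φ x = ∑ i, (2 * ζ x * fderiv ℝ ζ x (b i) *
      (fderiv ℝ v x (b i) / v x) - ζ x ^ 2 * (fderiv ℝ v x (b i) / v x) ^ 2) := by
    intro x
    have dζ := ((hζ.differentiable one_ne_zero) x).hasFDerivAt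
    have dv := ((hv.differentiable one_ne_zero) x).hasFDerivAt
    have dinv := (hasDerivAt_inv (hne x)).comp_hasFDerivAt x dv
    have d1 := (dζ.mul dζ).mul dinv
    have f1 : φ = ζ * ζ * ((fun y => y⁻¹) ∘ v) := by
      funext y; simp [hφd, sq, div_eq_mul_inv]
    unfold gdot
    rw [f1, d1.fderiv]
    refine Finset.sum_congr rfl fun i _ => ?_
    simp only [ContinuousLinearMap.add_apply, ContinuousLinearMap.smul_apply,
      Pi.mul_apply, Function.comp_apply, smul_eq_mul]
    field_simp [hne x]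
    ring
  have hgl : Continuous (fun x => gsq b v x / v x ^ 2) :=
    (continuous_gsq b hv).div (hv.continuous.pow 2) fun x => pow_ne_zero 2 (hne x)
  have hint1 : Integrable (gdot b v φ) :=
    integrable_finsetSum _ fun i _ => integrable_mul_cs (continuous_fderiv_apply' hv (b i))
      (continuous_fderiv_apply' h1 (b i)) (hasCompactSupport_fderiv_apply h1c (b i))
  have hintg : Integrable (gsq b ζ) :=
    (continuous_gsq b hζ).integrable_of_hasCompactSupport (hasCompactSupport_gsq b hc)
  have hintL : Integrable (fun x => ζ x ^ 2 * (gsq b v x / v x ^ 2)) :=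
    ((hζ.continuous.pow 2).mul hgl).integrable_of_hasCompactSupport
      (hasCompactSupport_sq hc).mul_right
  have hintc : Integrable (fun x => c x * ζ x ^ 2) :=
    integrable_mul_cs hcc (hζ.continuous.pow 2) (hasCompactSupport_sq hc)
  have hintca : Integrable (fun x => |c x| * ζ x ^ 2) :=
    integrable_mul_cs hcc.abs (hζ.continuous.pow 2) (hasCompactSupport_sq hc)
  have hL : ∀ x, ζ x ^ 2 * (gsq b v x / v x ^ 2)
      = ∑ i, ζ x ^ 2 * (fderiv ℝ v x (b i) / v x) ^ 2 := by
    intro x
    simp only [gsq, Finset.sum_div, Finset.mul_sum, div_pow]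
  have up1 : ∀ x, gdot b v φ x ≤ gsq b ζ x := by
    intro x
    rw [hpt x]
    simp only [gsq]
    refine Finset.sum_le_sum fun i _ => ?_
    nlinarith [sq_nonneg (ζ x * (fderiv ℝ v x (b i) / v x) - fderiv ℝ ζ x (b i))]
  have up2 : ∀ x, gdot b v φ x ≤ 2 * gsq b ζ x - ζ x ^ 2 * (gsq b v x / v x ^ 2) / 2 := by
    intro x
    rw [hpt x, hL x]
    simp only [gsq, Finset.mul_sum, Finset.sum_div, ← Finset.sum_sub_distrib]
    refine Finset.sum_le_sum fun i _ => ?_
    nlinarith [sq_nonneg (ζ x * (fderiv ℝ v x (b i) / v x) - 2 * fderiv ℝ ζ x (b i))]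
  constructor
  · have := integral_mono hint1 hintg up1
    linarith
  · have h3 := integral_mono hint1 ((hintg.const_mul 2).sub (hintL.div_const 2)) up2
    simp only [Pi.sub_apply] at h3
    rw [integral_sub (hintg.const_mul 2) (hintL.div_const 2), integral_const_mul,
      integral_div, e1] at h3
    have habs : (∫ x, c x * ζ x ^ 2) ≤ ∫ x, |c x| * ζ x ^ 2 :=
      integral_mono hintc hintca fun x => mul_le_mul_of_nonneg_right (le_abs_self _) (sq_nonneg _)
    linarith

end Vale.Agent.P134P
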