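import Vale.Agent.P134P.Specs
import Vale.Agent.P134P.Weak

/-!
# P134: De Giorgi's conjecture for solutions periodic in `n - 3` horizontal directions,
from the regularity, profile, front and energy interfaces
-/

open scoped BigOperators RealInnerProductSpace
open Filter Topology MeasureTheory Module InnerProductSpace

namespace Vale.Agent.P134P

variable {E : Type*} [NormedAddCommGroup E] [InnerProductSpace ℝ E] [FiniteDimensional ℝ E]

/-- An orthonormal basis whose first `m` vectors span the periods and whose last one is `e`. -/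
theorem adapted_basis {m : ℕ} (hE : finrank ℝ E = m + 3) {e : E} (he : ‖e‖ = 1) {τ : Fin m → E}
    (hτ : LinearIndependent ℝ τ) (hperp : ∀ j, ⟪e, τ j⟫ = 0) :
    ∃ b : OrthonormalBasis (Fin (m + 3)) ℝ E, b (Fin.last (m + 2)) = e ∧
      ∀ j (i : Fin (m + 3)), ¬(i : ℕ) < m → ⟪b i, τ j⟫ = 0 := by
  set V := Submodule.span ℝ (Set.range τ) with hV
  have hdim : finrank ℝ V = m := by rw [hV, finrank_span_eq_card hτ, Fintype.card_fin]
  set bV : OrthonormalBasis (Fin m) ℝ V :=
    (stdOrthonormalBasis ℝ V).reindex (finCongr hdim) with hbV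
  have hVe : ∀ x : V, ⟪e, (x : E)⟫ = 0 := by
    have hle : V ≤ (ℝ ∙ e)ᗮ := Submodule.span_le.2 (by
      rintro _ ⟨j, rfl⟩
      exact Submodule.mem_orthogonal_singleton_iff_inner_right.2 (hperp j))
    exact fun x => Submodule.mem_orthogonal_singleton_iff_inner_right.1 (hle x.2)
  set v : Fin (m + 3) → E := fun i => if h : (i : ℕ) < m then (bV ⟨i, h⟩ : E) else e with hv
  set s : Set (Fin (m + 3)) := {i | (i : ℕ) < m ∨ i = Fin.last (m + 2)} with hs
  have hon : Orthonormal ℝ (s.domRestrict v) := by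
    rw [orthonormal_iff_ite]
    rintro ⟨i, hi⟩ ⟨j, hj⟩
    have key := orthonormal_iff_ite.1 bV.orthonormal
    simp only [Set.domRestrict_apply, hv, Subtype.mk.injEq]
    by_cases h1 : (i : ℕ) < m <;> by_cases h2 : (j : ℕ) < m <;> simp only [h1, h2, dite_true,
      dite_false]
    · rw [← Submodule.coe_inner, key]
      simp only [Fin.ext_iff]
    · rw [real_inner_comm, hVe, if_neg]
      intro h
      exact h2 (h ▸ h1)
    · rw [hVe, if_neg]
      intro h
      exact h1 (h ▸ h2)
    · have hi' : i = Fin.last (m + 2) := hi.resolve_left h1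
      have hj' : j = Fin.last (m + 2) := hj.resolve_left h2
      rw [hi', hj', if_pos rfl, real_inner_self_eq_norm_sq, he, one_pow]
  obtain ⟨b, hb⟩ := hon.exists_orthonormalBasis_extension_of_card_eq (by simp [hE])
  refine ⟨b, ?_, ?_⟩
  · rw [hb _ (Or.inr rfl), hv]
    exact dif_neg (show ¬(m + 2 < m) by omega)
  · intro j i hi
    have hmem : τ j ∈ V := Submodule.subset_span ⟨j, rfl⟩
    have hexp := bV.sum_repr' ⟨τ j, hmem⟩
    have hval : τ j = ∑ k : Fin m, ⟪bV k, ⟨τ j, hmem⟩⟫ • (bV k : E) := by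
      simpa using (congrArg (fun x : V => (x : E)) hexp).symm
    rw [hval, inner_sum]
    refine Finset.sum_eq_zero fun k _ => ?_
    rw [inner_smul_right]
    have hk : (bV k : E) = b (Fin.castLE (by omega) k) := by
      rw [hb _ (Or.inl (show ((Fin.castLE (by omega : m ≤ m + 3) k : Fin (m + 3)) : ℕ) < m from k.2)),
        hv]
      simp
    rw [hk, b.inner_eq_ite, if_neg, mul_zero]
    intro h
    exact hi (by rw [h]; exact k.2)

/-- A periodic function has periodic differential. -/
theorem fderiv_periodic {f : E → ℝ} {a : E} (h : ∀ x, f (x + a) = f x) (x : E) :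
    fderiv ℝ f (x + a) = fderiv ℝ f x := by
  rw [← fderiv_comp_add_right a, show (fun y => f (y + a)) = f from funext h]

section Rigidity

variable {ι : Type*} [Fintype ι]

/-- If the Picone remainders of all derivatives vanish then the solution is one-dimensional. -/
theorem oneDim_of_picSq (b : OrthonormalBasis ι ℝ E) (i₀ : ι) {u : E → ℝ}
    (hu : ContDiff ℝ 2 u) (hpos : ∀ x, 0 < dd u (b i₀) x)
    (hz : ∀ i x, picSq b (dd u (b i₀)) (dd u (b i)) x = 0) :
    ∃ (e : E) (h : ℝ → ℝ), ‖e‖ = 1 ∧ ∀ x, u x = h ⟪e, x⟫ := by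
  set v := dd u (b i₀) with hv
  have hu1 : Differentiable ℝ u := hu.differentiable (by norm_num)
  have hd : ∀ i, Differentiable ℝ (dd u (b i)) := fun i =>
    (contDiff_dd hu (b i)).differentiable one_ne_zero
  have hne : ∀ x, v x ≠ 0 := fun x => (hpos x).ne'
  -- the quotients are constant
  have hconst : ∀ i x, dd u (b i) x = dd u (b i) 0 / v 0 * v x := by
    intro i x
    set q : E → ℝ := dd u (b i) * ((fun y => y⁻¹) ∘ v) with hq
    have hqd : ∀ y, HasFDerivAt q _ y := fun y => ((hd i y).hasFDerivAt).mul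
      ((hasDerivAt_inv (hne y)).comp_hasFDerivAt y (hd i₀ y).hasFDerivAt)
    have hq0 : ∀ y, fderiv ℝ q y = 0 := by
      intro y
      refine ContinuousLinearMap.coe_injective (b.toBasis.ext fun k => ?_)
      have hp : pic b v (dd u (b i)) k y = 0 := by
        have := (Finset.sum_eq_zero_iff_of_nonneg fun j _ => sq_nonneg _).1 (hz i y) k
          (Finset.mem_univ k)
        simpa using this
      rw [(hqd y).fderiv]
      simp only [pic, sub_eq_zero] at hp
      simp only [OrthonormalBasis.coe_toBasis, ContinuousLinearMap.coe_coe,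
        ContinuousLinearMap.coe_zero, LinearMap.zero_apply, Function.comp_apply,
        FunLike.coe_add, Pi.add_apply, FunLike.coe_smul, Pi.smul_apply, smul_eq_mul,
        ContinuousLinearMap.add_apply, ContinuousLinearMap.smul_apply, hp]
      have := hne y
      field_simp
      ring
    have := is_const_of_fderiv_eq_zero (fun y => (hqd y).differentiableAt) hq0 x 0
    simp only [hq, Pi.mul_apply, Function.comp_apply] at this
    rw [← div_eq_mul_inv, ← div_eq_mul_inv, div_eq_iff (hne x)] at this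
    exact this
  set C : E := ∑ i, (dd u (b i) 0 / v 0) • b i with hC
  have hgrad : ∀ x d, fderiv ℝ u x d = v x * ⟪C, d⟫ := by
    intro x d
    conv_lhs => rw [← b.sum_repr' d]
    rw [map_sum, hC, sum_inner, Finset.mul_sum]
    refine Finset.sum_congr rfl fun i _ => ?_
    rw [map_smul, smul_eq_mul, real_inner_smul_left, show fderiv ℝ u x (b i) = dd u (b i) x from rfl,
      hconst i x]
    ring
  have hC0 : C ≠ 0 := by
    intro h
    have := hgrad 0 (b i₀)
    rw [h, inner_zero_left, mul_zero] at this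
    exact hne 0 this
  set e : E := ‖C‖⁻¹ • C with he
  have he1 : ‖e‖ = 1 := norm_smul_inv_norm hC0
  refine ⟨e, fun s => u (s • e), he1, fun x => ?_⟩
  set z : E := x - ⟪e, x⟫ • e with hzdef
  have hz0 : ⟪C, z⟫ = 0 := by
    have h1 : C = ‖C‖ • e := by
      rw [he, smul_smul, mul_inv_cancel₀ (norm_ne_zero_iff.2 hC0), one_smul]
    rw [h1, real_inner_smul_left, hzdef, inner_sub_right, inner_smul_right,
      real_inner_self_eq_norm_sq, he1]
    ring
  set y : E := ⟪e, x⟫ • e with hy
  have hg : ∀ t : ℝ, HasDerivAt (fun t : ℝ => u (y + t • z)) 0 t := by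
    intro t
    have h1 : HasDerivAt (fun s : ℝ => y + s • z) z t := by
      simpa using ((hasDerivAt_id t).smul_const z).const_add y
    refine ((hu1 _).hasFDerivAt.comp_hasDerivAt t h1).congr_deriv ?_
    rw [hgrad, hz0, mul_zero]
  have := is_const_of_deriv_eq_zero (fun t => (hg t).differentiableAt) (fun t => (hg t).deriv) 1 0
  simp only [one_smul, zero_smul, add_zero] at this
  rw [show y + z = x by rw [hzdef]; exact add_sub_cancel _ _] at this
  exact this

end Rigidity

/-- The assembly. -/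
theorem assembly (m : ℕ)
    (hReg : ∀ b : OrthonormalBasis (Fin (m + 3)) ℝ (EuclideanSpace ℝ (Fin (m + 3))),
      RegularitySpec b)
    (hProf : ∀ b : OrthonormalBasis (Fin (m + 3)) ℝ (EuclideanSpace ℝ (Fin (m + 3))),
      ProfileSpec b)
    (hFront : ∀ b : OrthonormalBasis (Fin (m + 3)) ℝ (EuclideanSpace ℝ (Fin (m + 3))),
      FrontSpec b)
    (hEnergy : ∀ b : OrthonormalBasis (Fin (m + 3)) ℝ (EuclideanSpace ℝ (Fin (m + 3))),
      EnergySpec b)
    (u : EuclideanSpace ℝ (Fin (m + 3)) → ℝ) (hu : ContDiff ℝ 2 u)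
    (heq : ∀ x, Laplacian.laplacian u x = u x ^ 3 - u x) (hbd : ∀ x, |u x| ≤ 1)
    (hmono : ∀ x, 0 < fderiv ℝ u x (EuclideanSpace.single (Fin.last (m + 2)) 1))
    (hper : ∃ τ : Fin m → EuclideanSpace ℝ (Fin (m + 3)), LinearIndependent ℝ τ ∧
      (∀ j, τ j (Fin.last (m + 2)) = 0) ∧ ∀ j x, u (x + τ j) = u x) :
    ∃ (e : EuclideanSpace ℝ (Fin (m + 3))) (h : ℝ → ℝ), ‖e‖ = 1 ∧ ∀ x, u x = h ⟪e, x⟫ := by
  obtain ⟨τ₀, hτ₀, hτlast, hτper⟩ := hper
  set en : EuclideanSpace ℝ (Fin (m + 3)) := EuclideanSpace.single (Fin.last (m + 2)) 1 with hen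
  obtain ⟨b, hblast, hbperp⟩ := adapted_basis (by simp) (e := en) (by simp [hen]) hτ₀
    (fun j => by simp [hen, EuclideanSpace.inner_single_left, hτlast j])
  set S : Finset (Fin (m + 3)) := Finset.univ.filter fun i => (i : ℕ) < m with hS
  have hcard : S.card = m := by
    rw [hS, show (Finset.univ.filter fun i : Fin (m + 3) => (i : ℕ) < m) =
      Finset.univ.map (Fin.castLEEmb (show m ≤ m + 3 by omega)) from by
        ext i
        simp only [Finset.mem_filter, Finset.mem_univ, true_and, Finset.mem_map]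
        exact ⟨fun h => ⟨⟨i, h⟩, rfl⟩, fun ⟨k, hk⟩ => hk ▸ k.2⟩]
    simp
  set τ : Fin S.card → EuclideanSpace ℝ (Fin (m + 3)) := τ₀ ∘ Fin.cast hcard with hτdef
  set i₀ : Fin (m + 3) := Fin.last (m + 2) with hi₀
  have hfree : i₀ ∉ S := by simp [hS, hi₀]
  have hτ : LinearIndependent ℝ τ := hτ₀.comp _ (Fin.cast_injective hcard)
  have hperp : ∀ j, ∀ i ∉ S, ⟪b i, τ j⟫ = 0 := fun j i hi =>
    hbperp _ i (by simpa [hS] using hi)
  have hτper' : ∀ j x, u (x + τ j) = u x := fun j x => hτper _ x
  have hsol : IsSol b u := by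
    refine ⟨hu, hbd, fun x => ?_⟩
    have h1 := congrFun (laplacian_eq_iteratedFDeriv_orthonormalBasis (f := u) b) x
    rw [heq x] at h1
    simp only [iteratedFDeriv_two_apply, Matrix.cons_val_zero, Matrix.cons_val_one] at h1
    simpa [hs, acF] using h1.symm
  have hpos : ∀ x, 0 < dd u (b i₀) x := fun x => by rw [hblast]; exact hmono x
  obtain ⟨M, hM⟩ := hReg b u hsol
  obtain ⟨ub, hub, hubM, hprof⟩ := hProf b u (b i₀) M hsol hM hpos
  have hset : Setup b S i₀ τ u M ub :=
    { free := hfree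
      three := by rw [Finset.card_compl, Fintype.card_fin, hcard]; omega
      indep := hτ
      perp := hperp
      periodic := hτper'
      sol := hsol
      reg := hM
      mono := hpos
      profileSol := hub
      profileReg := hubM
      profile := hprof }
  obtain ⟨C, hC, hB⟩ := hEnergy b S i₀ τ u M ub hset (hFront b S i₀ τ u M ub hset)
  have hv := contDiff_dd hu (b i₀)
  have hw := fun i => contDiff_dd hu (b i)
  set G : EuclideanSpace ℝ (Fin (m + 3)) → ℝ :=
    fun x => ∑ i, picSq b (dd u (b i₀)) (dd u (b i)) x with hG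
  have hGc : Continuous G :=
    continuous_finsetSum _ fun i _ => continuous_picSq b hv (hw i) hpos
  have hp0 : ∀ i x, 0 ≤ picSq b (dd u (b i₀)) (dd u (b i)) x := fun i x =>
    Finset.sum_nonneg fun _ _ => sq_nonneg _
  have hG0 : ∀ x, 0 ≤ G x := fun x => Finset.sum_nonneg fun i _ => hp0 i x
  have hu1 : ContDiff ℝ 1 u := hu.of_le (by norm_num)
  have hineq : ∀ ζ : EuclideanSpace ℝ (Fin (m + 3)) → ℝ, ContDiff ℝ 1 ζ → HasCompactSupport ζ →
      ∫ x, ζ x ^ 2 * G x ≤ 4 * ∫ x, gsq b ζ x * gsq b u x := by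
    intro ζ hζ hc
    have h1 : ∀ i, Integrable fun x => ζ x ^ 2 * picSq b (dd u (b i₀)) (dd u (b i)) x := fun i =>
      ((hζ.continuous.pow 2).mul (continuous_picSq b hv (hw i) hpos)
        ).integrable_of_hasCompactSupport (hasCompactSupport_sq hc).mul_right
    have h2 : ∀ i, Integrable fun x => dd u (b i) x ^ 2 * gsq b ζ x := fun i =>
      integrable_mul_cs ((hw i).continuous.pow 2) (continuous_gsq b hζ) (hasCompactSupport_gsq b hc)
    calc ∫ x, ζ x ^ 2 * G x
        = ∑ i, ∫ x, ζ x ^ 2 * picSq b (dd u (b i₀)) (dd u (b i)) x := by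
          rw [← integral_finsetSum _ fun i _ => h1 i]
          simp only [hG, Finset.mul_sum]
      _ ≤ ∑ i, 4 * ∫ x, dd u (b i) x ^ 2 * gsq b ζ x := Finset.sum_le_sum fun i _ =>
          picone b hv (hw i) hζ hc hpos (weak_dd hsol (b i₀)) (weak_dd hsol (b i))
      _ = 4 * ∫ x, gsq b ζ x * gsq b u x := by
          rw [← Finset.mul_sum, ← integral_finsetSum _ fun i _ => h2 i]
          congr 1
          refine integral_congr_ae (Filter.Eventually.of_forall fun x => ?_)
          simp only [← Finset.sum_mul]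
          exact mul_comm _ _
  have hGper : ∀ j x, G (x + τ j) = G x := by
    intro j x
    have hdd : ∀ a y, dd u a (y + τ j) = dd u a y := fun a y => by
      simp only [dd, fderiv_periodic (hτper' j) y]
    simp only [hG, picSq, pic, fderiv_periodic (hdd _) x, hdd]
  have hzero := liouville b S rfl τ hτ hperp hGc hG0 (continuous_gsq b hu1) (gsq_nonneg b u) hC
    (by norm_num : (0 : ℝ) ≤ 4) hB hineq hGper
  exact oneDim_of_picSq b i₀ hu hpos fun i x =>
    (Finset.sum_eq_zero_iff_of_nonneg fun k _ => hp0 k x).1 (hzero x) i (Finset.mem_univ i)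

end Vale.Agent.P134P
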