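import Mathlib

/-!
# P134 (De Giorgi conjecture), periodic case: shared definitions and interfaces

Theorem: an entire monotone bounded solution of the Allen-Cahn equation in dimension `m + 3`
that is periodic in `m` independent horizontal directions is one-dimensional.
-/

open scoped BigOperators RealInnerProductSpace
open Filter Topology

namespace Vale.Agent.P134P

variable {E : Type*} [NormedAddCommGroup E] [InnerProductSpace ℝ E] [FiniteDimensional ℝ E]
  {ι : Type*} [Fintype ι]

/-- The Allen-Cahn nonlinearity. -/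
def acF (s : ℝ) : ℝ := s ^ 3 - s

/-- Its derivative. -/
def acC (s : ℝ) : ℝ := 3 * s ^ 2 - 1

/-- The double well potential, with derivative `acF`. -/
noncomputable def acW (s : ℝ) : ℝ := (1 - s ^ 2) ^ 2 / 4

/-- Second derivative of `u` at `x` in directions `a`, `c`. -/
noncomputable def hs (u : E → ℝ) (x a c : E) : ℝ := fderiv ℝ (fderiv ℝ u) x a c

/-- Squared norm of the gradient, computed in an orthonormal basis. -/
noncomputable def gsq (b : OrthonormalBasis ι ℝ E) (u : E → ℝ) (x : E) : ℝ :=
  ∑ i, (fderiv ℝ u x (b i)) ^ 2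

/-- Energy density. -/
noncomputable def edens (b : OrthonormalBasis ι ℝ E) (u : E → ℝ) (x : E) : ℝ :=
  gsq b u x / 2 + acW (u x)

/-- A bounded entire classical solution. -/
structure IsSol (b : OrthonormalBasis ι ℝ E) (u : E → ℝ) : Prop where
  smooth : ContDiff ℝ 2 u
  bound : ∀ x, |u x| ≤ 1
  eqn : ∀ x, ∑ i, hs u x (b i) (b i) = acF (u x)

/-- Global bounds on first and second derivatives and Lipschitz bound on the second. -/
structure RegBd (u : E → ℝ) (M : ℝ) : Prop where
  nonneg : 0 ≤ M
  first : ∀ x a, |fderiv ℝ u x a| ≤ M * ‖a‖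
  second : ∀ x a c, |hs u x a c| ≤ M * ‖a‖ * ‖c‖
  lip : ∀ x y a c, |hs u x a c - hs u y a c| ≤ M * ‖x - y‖ * ‖a‖ * ‖c‖

/-- `ub` is the `C^2` limit of the translates of `u` along `e`. -/
structure IsProfile (u : E → ℝ) (e : E) (ub : E → ℝ) : Prop where
  val : ∀ x, Tendsto (fun t : ℝ => u (x + t • e)) atTop (𝓝 (ub x))
  first : ∀ x a, Tendsto (fun t : ℝ => fderiv ℝ u (x + t • e) a) atTop (𝓝 (fderiv ℝ ub x a))
  second : ∀ x a c, Tendsto (fun t : ℝ => hs u (x + t • e) a c) atTop (𝓝 (hs ub x a c))
  invariant : ∀ x (t : ℝ), ub (x + t • e) = ub x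

/-- Interface of the regularity module (no Schauder theory: barrier and difference quotients). -/
def RegularitySpec (b : OrthonormalBasis ι ℝ E) : Prop :=
  ∀ u : E → ℝ, IsSol b u → ∃ M, RegBd u M

/-- Interface of the limit module. -/
def ProfileSpec (b : OrthonormalBasis ι ℝ E) : Prop :=
  ∀ (u : E → ℝ) (e : E) (M : ℝ), IsSol b u → RegBd u M → (∀ x, 0 < fderiv ℝ u x e) →
    ∃ ub : E → ℝ, IsSol b ub ∧ RegBd ub M ∧ IsProfile u e ub

end Vale.Agent.P134P
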