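import Vale.Agent.P134P.Base

/-! # P134: elementary calculus lemmas (integration by parts, differentiation under the integral) -/

set_option linter.unusedSectionVars false

open scoped BigOperators RealInnerProductSpace
open Filter Topology MeasureTheory

namespace Vale.Agent.P134P

variable {E : Type*} [NormedAddCommGroup E] [InnerProductSpace ℝ E] [FiniteDimensional ℝ E]
  {ι : Type*} [Fintype ι]

/-- Scalar product of gradients in an orthonormal basis. -/
noncomputable def gdot (b : OrthonormalBasis ι ℝ E) (f g : E → ℝ) (x : E) : ℝ :=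
  ∑ i, fderiv ℝ f x (b i) * fderiv ℝ g x (b i)

/-- The directional derivative as a function. -/
noncomputable def dd (u : E → ℝ) (a : E) (x : E) : ℝ := fderiv ℝ u x a

theorem contDiff_dd {u : E → ℝ} (hu : ContDiff ℝ 2 u) (a : E) : ContDiff ℝ 1 (dd u a) := by
  have h1 : ContDiff ℝ 1 (fderiv ℝ u) := hu.fderiv_right (by norm_num)
  exact h1.clm_apply contDiff_const

theorem fderiv_dd {u : E → ℝ} (hu : ContDiff ℝ 2 u) (a x c : E) :
    fderiv ℝ (dd u a) x c = hs u x c a := by
  have h1 : ContDiff ℝ 1 (fderiv ℝ u) := hu.fderiv_right (by norm_num)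
  have h2 : DifferentiableAt ℝ (fderiv ℝ u) x := (h1.differentiable one_ne_zero) x
  unfold dd hs
  rw [fderiv_clm_apply h2 (differentiableAt_const a)]
  simp

theorem hs_symm {u : E → ℝ} (hu : ContDiff ℝ 2 u) (x a c : E) : hs u x a c = hs u x c a := by
  exact (hu.contDiffAt.isSymmSndFDerivAt (by simp)).eq a c

theorem continuous_fderiv_apply' {f : E → ℝ} (hf : ContDiff ℝ 1 f) (a : E) :
    Continuous (fun x => fderiv ℝ f x a) :=
  (hf.continuous_fderiv one_ne_zero).clm_apply continuous_const

theorem continuous_hs {u : E → ℝ} (hu : ContDiff ℝ 2 u) (a c : E) :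
    Continuous (fun x => hs u x a c) := by
  have h := continuous_fderiv_apply' (contDiff_dd hu c) a
  simpa only [fderiv_dd hu] using h

theorem continuous_gdot (b : OrthonormalBasis ι ℝ E) {f g : E → ℝ} (hf : ContDiff ℝ 1 f)
    (hg : ContDiff ℝ 1 g) : Continuous (gdot b f g) :=
  continuous_finsetSum _ fun i _ =>
    (continuous_fderiv_apply' hf (b i)).mul (continuous_fderiv_apply' hg (b i))

theorem continuous_gsq (b : OrthonormalBasis ι ℝ E) {f : E → ℝ} (hf : ContDiff ℝ 1 f) :
    Continuous (gsq b f) :=
  continuous_finsetSum _ fun i _ => (continuous_fderiv_apply' hf (b i)).pow 2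

theorem gsq_nonneg (b : OrthonormalBasis ι ℝ E) (f : E → ℝ) (x : E) : 0 ≤ gsq b f x :=
  Finset.sum_nonneg fun _ _ => sq_nonneg _

theorem hasCompactSupport_fderiv_apply {φ : E → ℝ} (hc : HasCompactSupport φ) (a : E) :
    HasCompactSupport (fun x => fderiv ℝ φ x a) :=
  hc.fderiv_apply (𝕜 := ℝ) a

theorem continuous_acF : Continuous acF := by unfold acF; fun_prop

theorem continuous_acC : Continuous acC := by unfold acC; fun_prop

theorem continuous_acW : Continuous acW := by unfold acW; fun_prop

theorem hasDerivAt_acF (s : ℝ) : HasDerivAt acF (acC s) s := by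
  have h := ((hasDerivAt_pow 3 s).sub (hasDerivAt_id s))
  show HasDerivAt (fun y : ℝ => y ^ 3 - y) (acC s) s
  simpa [acC, Pi.sub_def] using h

theorem hasDerivAt_acW (s : ℝ) : HasDerivAt acW (acF s) s := by
  have h := ((((hasDerivAt_pow 2 s).const_sub (1 : ℝ)).pow 2).div_const 4)
  refine (h.congr_of_eventuallyEq ?_).congr_deriv ?_
  · exact Filter.Eventually.of_forall fun y => by simp [acW]
  · simp [acF]
    ring

variable [MeasurableSpace E] [BorelSpace E]

theorem integrable_mul_cs {G φ : E → ℝ} (hG : Continuous G) (hφ : Continuous φ)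
    (hc : HasCompactSupport φ) : Integrable (fun x => G x * φ x) :=
  (hG.mul hφ).integrable_of_hasCompactSupport hc.mul_left

/-- Integration by parts against a compactly supported `C^1` function. -/
theorem ibp {f g : E → ℝ} (hf : ContDiff ℝ 1 f) (hg : ContDiff ℝ 1 g)
    (hc : HasCompactSupport g) (a : E) :
    ∫ x, fderiv ℝ f x a * g x = - ∫ x, f x * fderiv ℝ g x a := by
  have key := integral_mul_fderiv_eq_neg_fderiv_mul_of_integrable (μ := (volume : Measure E))
    (f := f) (g := g) (v := a)
    (integrable_mul_cs (continuous_fderiv_apply' hf a) hg.continuous hc)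
    (integrable_mul_cs hf.continuous (continuous_fderiv_apply' hg a)
      (hasCompactSupport_fderiv_apply hc a))
    (integrable_mul_cs hf.continuous hg.continuous hc)
    (fun x _ => (hf.differentiable one_ne_zero) x) (fun x _ => (hg.differentiable one_ne_zero) x)
  linarith

/-- Differentiation under the integral along a line. -/
theorem hasDerivAt_integral_shift {G φ : E → ℝ} (hG : ContDiff ℝ 1 G) (hφ : Continuous φ)
    (hc : HasCompactSupport φ) (e : E) (t : ℝ) :
    HasDerivAt (fun h : ℝ => ∫ x, G (x + h • e) * φ x)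
      (∫ x, fderiv ℝ G (x + t • e) e * φ x) t := by
  have hK : IsCompact (Set.Icc (t - 1) (t + 1) ×ˢ tsupport φ) := isCompact_Icc.prod hc
  have hcont : Continuous (fun p : ℝ × E => fderiv ℝ G (p.2 + p.1 • e) e) :=
    (continuous_fderiv_apply' hG e).comp (by fun_prop)
  obtain ⟨C, hC⟩ := hK.exists_bound_of_continuousOn hcont.continuousOn
  have hcomp : ∀ h : ℝ, Continuous (fun x : E => G (x + h • e)) := fun h =>
    hG.continuous.comp (by fun_prop)
  have hcomp' : ∀ h : ℝ, Continuous (fun x : E => fderiv ℝ G (x + h • e) e) := fun h =>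
    (continuous_fderiv_apply' hG e).comp (by fun_prop)
  refine (hasDerivAt_integral_of_dominated_loc_of_deriv_le
    (F := fun h x => G (x + h • e) * φ x) (F' := fun h x => fderiv ℝ G (x + h • e) e * φ x)
    (bound := fun x => C * |φ x|) (s := Set.Icc (t - 1) (t + 1))
    (Icc_mem_nhds (by linarith) (by linarith)) ?_ ?_ ?_ ?_ ?_ ?_).2
  · exact Filter.Eventually.of_forall fun h => ((hcomp h).mul hφ).aestronglyMeasurable
  · exact integrable_mul_cs (hcomp t) hφ hc
  · exact ((hcomp' t).mul hφ).aestronglyMeasurable
  · refine Filter.Eventually.of_forall fun x => ?_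
    intro h hh
    by_cases hx : φ x = 0
    · simp [hx]
    · have hxs : x ∈ tsupport φ := subset_tsupport _ hx
      have := hC (h, x) ⟨hh, hxs⟩
      simp only [Real.norm_eq_abs] at this ⊢
      rw [abs_mul]
      exact mul_le_mul_of_nonneg_right this (abs_nonneg _)
  · exact ((hφ.abs).integrable_of_hasCompactSupport hc.abs).const_mul C
  · refine Filter.Eventually.of_forall fun x => ?_
    intro h _
    have h1 : HasDerivAt (fun s : ℝ => x + s • e) e h := by
      simpa using ((hasDerivAt_id h).smul_const e).const_add x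
    exact (((hG.differentiable one_ne_zero) _).hasFDerivAt.comp_hasDerivAt h h1).mul_const (φ x)

end Vale.Agent.P134P
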