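import Vale.Agent.P134P.Calc

/-! # P134: boxes, product cutoffs, logarithmic cutoff in the short directions -/

set_option linter.unusedSectionVars false

open scoped BigOperators RealInnerProductSpace
open Filter Topology MeasureTheory

namespace Vale.Agent.P134P

/-- One-dimensional bump. -/
noncomputable def chi (s : ℝ) : ℝ := Real.smoothTransition ((4 - s ^ 2) / 3)

theorem chi_contDiff : ContDiff ℝ 1 chi :=
  Real.smoothTransition.contDiff.comp ((contDiff_const.sub (contDiff_id.pow 2)).div_const 3)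

theorem chi_nonneg (s : ℝ) : 0 ≤ chi s := Real.smoothTransition.nonneg _

theorem chi_le_one (s : ℝ) : chi s ≤ 1 := Real.smoothTransition.le_one _

theorem chi_one {s : ℝ} (h : |s| ≤ 1) : chi s = 1 := by
  refine Real.smoothTransition.one_of_one_le ?_
  have h1 : s ^ 2 ≤ 1 := by nlinarith [sq_abs s, abs_nonneg s]
  linarith [h1]

theorem chi_zero {s : ℝ} (h : 2 ≤ |s|) : chi s = 0 := by
  refine Real.smoothTransition.zero_of_nonpos ?_
  have h1 : 4 ≤ s ^ 2 := by nlinarith [sq_abs s, abs_nonneg s]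
  linarith [h1]

theorem deriv_chi_zero {s : ℝ} (h : |s| ≤ 1 ∨ 2 ≤ |s|) : deriv chi s = 0 := by
  rcases h with h | h
  · refine IsLocalMax.deriv_eq_zero (Filter.Eventually.of_forall fun y => ?_)
    rw [chi_one h]
    exact chi_le_one y
  · refine IsLocalMin.deriv_eq_zero (Filter.Eventually.of_forall fun y => ?_)
    rw [chi_zero h]
    exact chi_nonneg y

theorem exists_chi_deriv_bound : ∃ D : ℝ, 0 ≤ D ∧ ∀ s, |deriv chi s| ≤ D := by
  have hcont : Continuous (deriv chi) := chi_contDiff.continuous_deriv le_rfl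
  obtain ⟨D, hD⟩ := (isCompact_Icc (a := (-2 : ℝ)) (b := 2)).exists_bound_of_continuousOn
    hcont.continuousOn
  refine ⟨max D 0, le_max_right _ _, fun s => ?_⟩
  by_cases hs : |s| ≤ 2
  · exact le_trans (by simpa using hD s (abs_le.1 hs)) (le_max_left _ _)
  · simp [deriv_chi_zero (Or.inr (not_le.1 hs).le)]

/-- A bound for the derivative of the bump. -/
noncomputable def chiD : ℝ := exists_chi_deriv_bound.choose

theorem chiD_nonneg : 0 ≤ chiD := exists_chi_deriv_bound.choose_spec.1

theorem deriv_chi_le (s : ℝ) : |deriv chi s| ≤ chiD := exists_chi_deriv_bound.choose_spec.2 s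

variable {E : Type*} [NormedAddCommGroup E] [InnerProductSpace ℝ E] [FiniteDimensional ℝ E]
  {ι : Type*} [Fintype ι] [DecidableEq ι]

/-- Coordinate of `x - p`. -/
noncomputable def co (b : OrthonormalBasis ι ℝ E) (p : E) (i : ι) (x : E) : ℝ := ⟪b i, x - p⟫

/-- Coordinate box. -/
def box (b : OrthonormalBasis ι ℝ E) (p : E) (r : ι → ℝ) : Set E :=
  {x | ∀ i, |co b p i x| ≤ r i}

/-- Radii `L` in the long directions `S` and `R` in the others. -/
def rad (S : Finset ι) (L R : ℝ) (i : ι) : ℝ := if i ∈ S then L else R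

theorem continuous_co (b : OrthonormalBasis ι ℝ E) (p : E) (i : ι) : Continuous (co b p i) :=
  continuous_const.inner (continuous_id.sub continuous_const)

theorem isClosed_box (b : OrthonormalBasis ι ℝ E) (p : E) (r : ι → ℝ) :
    IsClosed (box b p r) := by
  simp only [box, Set.ofPred_forall]
  exact isClosed_iInter fun i => isClosed_le (continuous_co b p i).abs continuous_const

theorem norm_sub_le_sum (b : OrthonormalBasis ι ℝ E) (p x : E) :
    ‖x - p‖ ≤ ∑ i, |co b p i x| := by
  have h := b.sum_repr' (x - p)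
  calc ‖x - p‖ = ‖∑ i, co b p i x • b i‖ := by rw [show (∑ i, co b p i x • b i) = x - p from h]
    _ ≤ ∑ i, ‖co b p i x • b i‖ := norm_sum_le _ _
    _ = ∑ i, |co b p i x| := by simp [norm_smul]

theorem isCompact_box (b : OrthonormalBasis ι ℝ E) (p : E) (r : ι → ℝ) :
    IsCompact (box b p r) := by
  refine Metric.isCompact_of_isClosed_isBounded (isClosed_box b p r) ?_
  refine (Metric.isBounded_closedBall (x := p) (r := ∑ i, r i)).subset fun x hx => ?_
  rw [Metric.mem_closedBall, dist_eq_norm]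
  exact (norm_sub_le_sum b p x).trans (Finset.sum_le_sum fun i _ => hx i)

theorem box_mono (b : OrthonormalBasis ι ℝ E) (p : E) {r r' : ι → ℝ} (h : ∀ i, r i ≤ r' i) :
    box b p r ⊆ box b p r' := fun _ hx i => (hx i).trans (h i)

theorem abs_co_le (b : OrthonormalBasis ι ℝ E) (p x : E) (i : ι) : |co b p i x| ≤ ‖x - p‖ := by
  refine (abs_real_inner_le_norm _ _).trans ?_
  simp

/-- Product cutoff in the directions of `S` at scale `L`. -/
noncomputable def pcut (b : OrthonormalBasis ι ℝ E) (p : E) (S : Finset ι) (L : ℝ) (x : E) : ℝ :=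
  ∏ i ∈ S, chi (co b p i x / L)

theorem contDiff_pcut (b : OrthonormalBasis ι ℝ E) (p : E) (S : Finset ι) (L : ℝ) :
    ContDiff ℝ 1 (pcut b p S L) := by
  refine contDiff_prod fun i _ => ?_
  exact chi_contDiff.comp ((contDiff_const.inner ℝ (contDiff_id.sub contDiff_const)).div_const L)

theorem pcut_nonneg (b : OrthonormalBasis ι ℝ E) (p : E) (S : Finset ι) (L : ℝ) (x : E) :
    0 ≤ pcut b p S L x := Finset.prod_nonneg fun _ _ => chi_nonneg _

theorem pcut_le_one (b : OrthonormalBasis ι ℝ E) (p : E) (S : Finset ι) (L : ℝ) (x : E) :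
    pcut b p S L x ≤ 1 := Finset.prod_le_one (fun _ _ => chi_nonneg _) fun _ _ => chi_le_one _

theorem pcut_one (b : OrthonormalBasis ι ℝ E) (p : E) (S : Finset ι) {L : ℝ} (hL : 0 < L)
    {x : E} (h : ∀ i ∈ S, |co b p i x| ≤ L) : pcut b p S L x = 1 := by
  refine Finset.prod_eq_one fun i hi => chi_one ?_
  rw [abs_div, abs_of_pos hL, div_le_one hL]
  exact h i hi

theorem pcut_ne_zero (b : OrthonormalBasis ι ℝ E) (p : E) (S : Finset ι) {L : ℝ} (hL : 0 < L)
    {x : E} (h : pcut b p S L x ≠ 0) : ∀ i ∈ S, |co b p i x| ≤ 2 * L := by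
  intro i hi
  by_contra hc
  apply h
  refine Finset.prod_eq_zero hi (chi_zero ?_)
  rw [abs_div, abs_of_pos hL, le_div_iff₀ hL]
  exact (not_le.1 hc).le

theorem fderiv_pcut (b : OrthonormalBasis ι ℝ E) (p : E) (S : Finset ι) (L : ℝ) (x : E) (j : ι) :
    fderiv ℝ (pcut b p S L) x (b j) = if j ∈ S then
      deriv chi (co b p j x / L) / L * pcut b p (S.erase j) L x else 0 := by
  have hd := ((contDiff_pcut b p S L).differentiable one_ne_zero) x
  rw [← hd.lineDeriv_eq_fderiv, lineDeriv]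
  have hco : ∀ i, ∀ t : ℝ, co b p i (x + t • b j) = co b p i x + if i = j then t else 0 := by
    intro i t
    simp only [co, inner_sub_right, inner_add_right, inner_smul_right, b.inner_eq_ite]
    split_ifs <;> ring
  by_cases hj : j ∈ S
  · have heq : (fun t : ℝ => pcut b p S L (x + t • b j))
        = fun t => chi ((co b p j x + t) / L) * pcut b p (S.erase j) L x := by
      funext t
      unfold pcut
      rw [← Finset.mul_prod_erase S _ hj, hco j t, if_pos rfl]
      congr 1
      refine Finset.prod_congr rfl fun i hi => ?_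
      rw [hco i t, if_neg (Finset.ne_of_mem_erase hi), add_zero]
    have h1 : HasDerivAt (fun t : ℝ => (co b p j x + t) / L) (1 / L) 0 :=
      ((hasDerivAt_id (0 : ℝ)).const_add _).div_const L
    have h2 := ((chi_contDiff.differentiable one_ne_zero) ((co b p j x + 0) / L)).hasDerivAt.comp
      (0 : ℝ) h1
    have h3 : HasDerivAt (fun t : ℝ => chi ((co b p j x + t) / L) * pcut b p (S.erase j) L x)
        (deriv chi ((co b p j x + 0) / L) * (1 / L) * pcut b p (S.erase j) L x) 0 :=
      h2.mul_const _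
    rw [heq, if_pos hj, h3.deriv]
    simp only [add_zero]
    ring
  · have heq : (fun t : ℝ => pcut b p S L (x + t • b j)) = fun _ => pcut b p S L x := by
      funext t
      refine Finset.prod_congr rfl fun i hi => ?_
      rw [hco i t, if_neg (by rintro rfl; exact hj hi), add_zero]
    rw [heq, if_neg hj]
    simp

theorem abs_fderiv_pcut (b : OrthonormalBasis ι ℝ E) (p : E) (S : Finset ι) {L : ℝ} (hL : 0 < L)
    (x : E) (j : ι) :
    |fderiv ℝ (pcut b p S L) x (b j)| ≤ chiD / L ∧
    (fderiv ℝ (pcut b p S L) x (b j) ≠ 0 →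
      (∀ i ∈ S, |co b p i x| ≤ 2 * L) ∧ L < |co b p j x|) := by
  rw [fderiv_pcut]
  by_cases hj : j ∈ S
  · rw [if_pos hj]
    constructor
    · rw [abs_mul, abs_div, abs_of_pos hL, abs_of_nonneg (pcut_nonneg b p _ L x)]
      exact (mul_le_of_le_one_right (by positivity) (pcut_le_one b p _ L x)).trans
        (div_le_div_of_nonneg_right (deriv_chi_le _) hL.le)
    · intro h
      have h1 : deriv chi (co b p j x / L) ≠ 0 := fun h0 => h (by simp [h0])
      have h2 : pcut b p (S.erase j) L x ≠ 0 := fun h0 => h (by simp [h0])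
      have h3 : ¬ (|co b p j x / L| ≤ 1 ∨ 2 ≤ |co b p j x / L|) := fun h0 =>
        h1 (deriv_chi_zero h0)
      simp only [not_or, not_le, abs_div, abs_of_pos hL, lt_div_iff₀ hL, div_lt_iff₀ hL,
        one_mul] at h3
      refine ⟨fun i hi => ?_, h3.1⟩
      by_cases hij : i = j
      · exact hij ▸ h3.2.le
      · exact pcut_ne_zero b p _ hL h2 i (Finset.mem_erase.2 ⟨hij, hi⟩)
  · rw [if_neg hj]
    refine ⟨?_, fun h => (h rfl).elim⟩
    simp only [abs_zero]
    exact div_nonneg chiD_nonneg hL.le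

/-- Logarithmic cutoff: average of dyadic cutoffs in the short directions. -/
noncomputable def lcut (b : OrthonormalBasis ι ℝ E) (p : E) (S : Finset ι) (N : ℕ) (x : E) : ℝ :=
  (∑ k ∈ Finset.range N, pcut b p Sᶜ ((2 : ℝ) ^ k) x) / N

/-- The test function `long cutoff * logarithmic cutoff`. -/
noncomputable def zcut (b : OrthonormalBasis ι ℝ E) (p : E) (S : Finset ι) (L : ℝ) (N : ℕ)
    (x : E) : ℝ := pcut b p S L x * lcut b p S N x

theorem contDiff_lcut (b : OrthonormalBasis ι ℝ E) (p : E) (S : Finset ι) (N : ℕ) :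
    ContDiff ℝ 1 (lcut b p S N) :=
  (ContDiff.sum fun _ _ => contDiff_pcut b p _ _).div_const _

theorem contDiff_zcut (b : OrthonormalBasis ι ℝ E) (p : E) (S : Finset ι) (L : ℝ) (N : ℕ) :
    ContDiff ℝ 1 (zcut b p S L N) :=
  (contDiff_pcut b p S L).mul (contDiff_lcut b p S N)

theorem lcut_nonneg (b : OrthonormalBasis ι ℝ E) (p : E) (S : Finset ι) (N : ℕ) (x : E) :
    0 ≤ lcut b p S N x :=
  div_nonneg (Finset.sum_nonneg fun _ _ => pcut_nonneg b p _ _ x) (Nat.cast_nonneg N)

theorem lcut_le_one (b : OrthonormalBasis ι ℝ E) (p : E) (S : Finset ι) (N : ℕ) (x : E) :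
    lcut b p S N x ≤ 1 := by
  refine div_le_one_of_le₀ ?_ (Nat.cast_nonneg N)
  calc (∑ k ∈ Finset.range N, pcut b p Sᶜ ((2 : ℝ) ^ k) x)
      ≤ ∑ _k ∈ Finset.range N, (1 : ℝ) := Finset.sum_le_sum fun _ _ => pcut_le_one b p _ _ x
    _ = N := by simp

theorem lcut_ne_zero (b : OrthonormalBasis ι ℝ E) (p : E) (S : Finset ι) (N : ℕ) {x : E}
    (h : lcut b p S N x ≠ 0) : ∀ i ∉ S, |co b p i x| ≤ 2 ^ N := by
  intro i hi
  obtain ⟨k, hk, hk0⟩ : ∃ k ∈ Finset.range N, pcut b p Sᶜ ((2 : ℝ) ^ k) x ≠ 0 := by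
    by_contra hc
    push Not at hc
    exact h (by simp [lcut, Finset.sum_eq_zero hc])
  have := pcut_ne_zero b p _ (by positivity) hk0 i (Finset.mem_compl.2 hi)
  refine this.trans ?_
  rw [← pow_succ']
  exact pow_le_pow_right₀ (by norm_num) (Finset.mem_range.1 hk)

theorem zcut_ne_zero (b : OrthonormalBasis ι ℝ E) (p : E) (S : Finset ι) {L : ℝ} (hL : 0 < L)
    (N : ℕ) {x : E} (h : zcut b p S L N x ≠ 0) : x ∈ box b p (rad S (2 * L) (2 ^ N)) := by
  intro i
  by_cases hi : i ∈ S
  · simp only [rad, if_pos hi]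
    exact pcut_ne_zero b p S hL (left_ne_zero_of_mul h) i hi
  · simp only [rad, if_neg hi]
    exact lcut_ne_zero b p S N (right_ne_zero_of_mul h) i hi

theorem hasCompactSupport_zcut (b : OrthonormalBasis ι ℝ E) (p : E) (S : Finset ι) {L : ℝ}
    (hL : 0 < L) (N : ℕ) : HasCompactSupport (zcut b p S L N) :=
  HasCompactSupport.intro (isCompact_box b p (rad S (2 * L) (2 ^ N))) fun x hx => by
    by_contra h
    exact hx (zcut_ne_zero b p S hL N h)

theorem zcut_one (b : OrthonormalBasis ι ℝ E) (p : E) (S : Finset ι) {L : ℝ} (hL : 0 < L)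
    {N : ℕ} (hN : 0 < N) {x : E} (hx : x ∈ box b p (rad S L 1)) :
    zcut b p S L N x = 1 := by
  have h1 : pcut b p S L x = 1 := pcut_one b p S hL fun i hi => by
    simpa [rad, hi] using hx i
  have h2 : ∀ k ∈ Finset.range N, pcut b p Sᶜ ((2 : ℝ) ^ k) x = 1 := fun k _ =>
    pcut_one b p _ (by positivity) fun i hi => by
      have := hx i
      simp only [rad, if_neg (Finset.mem_compl.1 hi)] at this
      exact this.trans (one_le_pow₀ (by norm_num))
  have h3 : (N : ℝ) ≠ 0 := by exact_mod_cast hN.ne'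
  simp [zcut, h1, lcut, Finset.sum_congr rfl h2, h3]

theorem zcut_sq_le_one (b : OrthonormalBasis ι ℝ E) (p : E) (S : Finset ι) (L : ℝ) (N : ℕ)
    (x : E) : zcut b p S L N x ^ 2 ≤ 1 := by
  have h0 : 0 ≤ zcut b p S L N x := mul_nonneg (pcut_nonneg _ _ _ _ _) (lcut_nonneg _ _ _ _ _)
  have h1 : zcut b p S L N x ≤ 1 :=
    mul_le_one₀ (pcut_le_one _ _ _ _ _) (lcut_nonneg _ _ _ _ _) (lcut_le_one _ _ _ _ _)
  exact pow_le_one₀ h0 h1

/-- Pointwise bound on the gradient of the test function. -/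
theorem gsq_zcut_le (b : OrthonormalBasis ι ℝ E) (p : E) (S : Finset ι) {L : ℝ} (hL : 0 < L)
    (N : ℕ) (x : E) :
    gsq b (zcut b p S L N) x ≤ Fintype.card ι * ((chiD / L) ^ 2 *
        (box b p (rad S (2 * L) (2 ^ N))).indicator 1 x
      + (∑ k ∈ Finset.range N, (chiD / 2 ^ k) ^ 2 *
          (box b p (rad S (2 * L) (2 ^ (k + 1)))).indicator 1 x) / (N : ℝ) ^ 2) := by
  set A := (chiD / L) ^ 2 * (box b p (rad S (2 * L) (2 ^ N))).indicator (1 : E → ℝ) x with hA
  set B := (∑ k ∈ Finset.range N, (chiD / 2 ^ k) ^ 2 *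
    (box b p (rad S (2 * L) (2 ^ (k + 1)))).indicator (1 : E → ℝ) x) / (N : ℝ) ^ 2 with hB
  have hind : ∀ r, 0 ≤ (box b p r).indicator (1 : E → ℝ) x := fun r =>
    Set.indicator_nonneg (fun _ _ => zero_le_one) x
  have hA0 : 0 ≤ A := mul_nonneg (sq_nonneg _) (hind _)
  have hB0 : 0 ≤ B :=
    div_nonneg (Finset.sum_nonneg fun k _ => mul_nonneg (sq_nonneg _) (hind _)) (sq_nonneg _)
  have hP := ((contDiff_pcut b p S L).differentiable one_ne_zero) x
  have hQ := fun k : ℕ => ((contDiff_pcut b p Sᶜ ((2 : ℝ) ^ k)).differentiable one_ne_zero) x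
  have key : ∀ j, (fderiv ℝ (zcut b p S L N) x (b j)) ^ 2 ≤ A + B := by
    intro j
    have hz : fderiv ℝ (zcut b p S L N) x (b j)
        = fderiv ℝ (pcut b p S L) x (b j) * lcut b p S N x
          + pcut b p S L x * ((∑ k ∈ Finset.range N,
              fderiv ℝ (pcut b p Sᶜ ((2 : ℝ) ^ k)) x (b j)) / N) := by
      have h1 := (HasFDerivAt.fun_sum (u := Finset.range N) fun k _ => (hQ k).hasFDerivAt)
      have h2 := hP.hasFDerivAt.mul (h1.const_mul ((N : ℝ)⁻¹))
      have hf : zcut b p S L N = pcut b p S L *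
          fun y => ((N : ℝ)⁻¹) * ∑ k ∈ Finset.range N, pcut b p Sᶜ ((2 : ℝ) ^ k) y := by
        funext y
        simp [zcut, lcut, div_eq_inv_mul]
      rw [hf, h2.fderiv]
      simp only [FunLike.coe_add, Pi.add_apply, FunLike.coe_smul, Pi.smul_apply, smul_eq_mul,
        FunLike.coe_sum, Finset.sum_apply, lcut]
      ring
    by_cases hj : j ∈ S
    · have h0 : ∀ k ∈ Finset.range N, fderiv ℝ (pcut b p Sᶜ ((2 : ℝ) ^ k)) x (b j) = 0 :=
        fun k _ => by rw [fderiv_pcut, if_neg (by simp [hj])]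
      rw [hz, Finset.sum_eq_zero h0, zero_div, mul_zero, add_zero, mul_pow]
      obtain ⟨hb, hs⟩ := abs_fderiv_pcut b p S hL x j
      by_cases hne : fderiv ℝ (pcut b p S L) x (b j) = 0 ∨ lcut b p S N x = 0
      · rcases hne with h | h <;> simp [h] <;> linarith
      · push Not at hne
        have hx : x ∈ box b p (rad S (2 * L) (2 ^ N)) := fun i => by
          by_cases hi : i ∈ S
          · simp only [rad, if_pos hi]; exact (hs hne.1).1 i hi
          · simp only [rad, if_neg hi]; exact lcut_ne_zero b p S N hne.2 i hi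
        have h1 : (fderiv ℝ (pcut b p S L) x (b j)) ^ 2 ≤ (chiD / L) ^ 2 := by
          rw [← sq_abs]; exact pow_le_pow_left₀ (abs_nonneg _) hb 2
        have h2 : lcut b p S N x ^ 2 ≤ 1 :=
          pow_le_one₀ (lcut_nonneg _ _ _ _ _) (lcut_le_one _ _ _ _ _)
        have h3 : A = (chiD / L) ^ 2 := by simp [hA, hx]
        nlinarith [sq_nonneg (fderiv ℝ (pcut b p S L) x (b j)), sq_nonneg (lcut b p S N x)]
    · rw [hz, fderiv_pcut b p S L x j, if_neg hj, zero_mul, zero_add, mul_pow]
      by_cases hne : pcut b p S L x = 0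
      · simp [hne]; linarith
      have h2 : pcut b p S L x ^ 2 ≤ 1 :=
        pow_le_one₀ (pcut_nonneg _ _ _ _ _) (pcut_le_one _ _ _ _ _)
      suffices hsum : ((∑ k ∈ Finset.range N, fderiv ℝ (pcut b p Sᶜ ((2 : ℝ) ^ k)) x (b j)) / N) ^ 2
          ≤ B by
        nlinarith [sq_nonneg ((∑ k ∈ Finset.range N,
          fderiv ℝ (pcut b p Sᶜ ((2 : ℝ) ^ k)) x (b j)) / N)]
      rw [div_pow, hB]
      refine div_le_div_of_nonneg_right ?_ (sq_nonneg _)
      set d := fun k : ℕ => fderiv ℝ (pcut b p Sᶜ ((2 : ℝ) ^ k)) x (b j) with hd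
      by_cases hall : ∀ k ∈ Finset.range N, d k = 0
      · rw [Finset.sum_eq_zero hall]
        simp only [ne_eq, OfNat.ofNat_ne_zero, not_false_eq_true, zero_pow]
        exact Finset.sum_nonneg fun k _ => mul_nonneg (sq_nonneg _) (hind _)
      push Not at hall
      obtain ⟨k, hk, hk0⟩ := hall
      have huniq : ∀ l ∈ Finset.range N, l ≠ k → d l = 0 := by
        intro l _ hlk
        by_contra hl
        have a1 := (abs_fderiv_pcut b p Sᶜ (by positivity) x j).2 hk0
        have a2 := (abs_fderiv_pcut b p Sᶜ (by positivity) x j).2 hl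
        have hjc : j ∈ Sᶜ := Finset.mem_compl.2 hj
        have c1 : (2 : ℝ) ^ l < 2 ^ (k + 1) := by
          rw [pow_succ']; exact lt_of_lt_of_le a2.2 (a1.1 j hjc)
        have c2 : (2 : ℝ) ^ k < 2 ^ (l + 1) := by
          rw [pow_succ']; exact lt_of_lt_of_le a1.2 (a2.1 j hjc)
        have n1 := (pow_lt_pow_iff_right₀ (by norm_num : (1 : ℝ) < 2)).1 c1
        have n2 := (pow_lt_pow_iff_right₀ (by norm_num : (1 : ℝ) < 2)).1 c2
        omega
      rw [Finset.sum_eq_single k huniq (fun h => (h hk).elim)]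
      refine le_trans ?_ (Finset.single_le_sum
        (f := fun k => (chiD / 2 ^ k) ^ 2 *
          (box b p (rad S (2 * L) (2 ^ (k + 1)))).indicator (1 : E → ℝ) x)
        (fun k _ => mul_nonneg (sq_nonneg _) (hind _)) hk)
      obtain ⟨hb, hs⟩ := abs_fderiv_pcut b p Sᶜ (by positivity : (0 : ℝ) < 2 ^ k) x j
      have hx : x ∈ box b p (rad S (2 * L) (2 ^ (k + 1))) := fun i => by
        by_cases hi : i ∈ S
        · simp only [rad, if_pos hi]; exact pcut_ne_zero b p S hL hne i hi
        · simp only [rad, if_neg hi]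
          rw [pow_succ']
          exact (hs hk0).1 i (Finset.mem_compl.2 hi)
      simp only [Set.indicator_of_mem hx, Pi.one_apply, mul_one]
      rw [← sq_abs]
      exact pow_le_pow_left₀ (abs_nonneg _) hb 2
  calc gsq b (zcut b p S L N) x ≤ ∑ _j : ι, (A + B) := Finset.sum_le_sum fun j _ => key j
    _ = _ := by simp [Finset.card_univ, mul_add]

variable [MeasurableSpace E] [BorelSpace E]

theorem volume_box (b : OrthonormalBasis ι ℝ E) (p : E) {r : ι → ℝ} (hr : ∀ i, 0 ≤ r i) :
    (volume : Measure E).real (box b p r) = ∏ i, 2 * r i := by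
  have h1 : box b p r = (fun x => x - p) ⁻¹' (b.repr ⁻¹' (WithLp.ofLp ⁻¹'
      Set.univ.pi fun i => Set.Icc (-r i) (r i))) := by
    ext x
    simp only [box, Set.mem_ofPred_eq, Set.mem_preimage, Set.mem_univ_pi, Set.mem_Icc,
      b.repr_apply_apply, co, ← abs_le]
  have hm : MeasurableSet (Set.univ.pi fun i => Set.Icc (-r i) (r i)) :=
    MeasurableSet.univ_pi fun i => measurableSet_Icc
  have hm2 := (PiLp.volume_preserving_ofLp ι).measurable hm
  rw [h1, measureReal_def,
    (measurePreserving_sub_right (volume : Measure E) p).measure_preimage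
      (b.measurePreserving_repr.measurable hm2).nullMeasurableSet,
    b.measurePreserving_repr.measure_preimage hm2.nullMeasurableSet,
    (PiLp.volume_preserving_ofLp ι).measure_preimage hm.nullMeasurableSet]
  rw [Set.pi_univ_Icc, Real.volume_Icc_pi_toReal (fun i => by linarith [hr i])]
  exact Finset.prod_congr rfl fun i _ => by ring

end Vale.Agent.P134P
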