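import Vale.Agent.P134P.Specs

/-! # P134: energy bound in boxes, by sliding to the profile -/

set_option linter.unusedSectionVars false

open scoped BigOperators RealInnerProductSpace
open Filter Topology MeasureTheory

namespace Vale.Agent.P134P

variable {E : Type*} [NormedAddCommGroup E] [InnerProductSpace ℝ E] [FiniteDimensional ℝ E]
  [MeasurableSpace E] [BorelSpace E]
  {ι : Type*} [Fintype ι] [DecidableEq ι]

/-- Cutoff at scale `L` in the directions of `S` and `R` in the others. -/
noncomputable def ecut (b : OrthonormalBasis ι ℝ E) (p : E) (S : Finset ι) (L R : ℝ) (x : E) : ℝ :=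
  pcut b p S L x * pcut b p Sᶜ R x

theorem contDiff_ecut (b : OrthonormalBasis ι ℝ E) (p : E) (S : Finset ι) (L R : ℝ) :
    ContDiff ℝ 1 (ecut b p S L R) :=
  (contDiff_pcut b p S L).mul (contDiff_pcut b p Sᶜ R)

theorem ecut_nonneg (b : OrthonormalBasis ι ℝ E) (p : E) (S : Finset ι) (L R : ℝ) (x : E) :
    0 ≤ ecut b p S L R x := mul_nonneg (pcut_nonneg b p S L x) (pcut_nonneg b p Sᶜ R x)

theorem ecut_ne_zero (b : OrthonormalBasis ι ℝ E) (p : E) (S : Finset ι) {L R : ℝ} (hL : 0 < L)
    (hR : 0 < R) {x : E} (h : ecut b p S L R x ≠ 0) :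
    x ∈ box b p (rad S (2 * L) (2 * R)) := by
  intro i
  by_cases hi : i ∈ S
  · simp only [rad, if_pos hi]
    exact pcut_ne_zero b p S hL (left_ne_zero_of_mul h) i hi
  · simp only [rad, if_neg hi]
    exact pcut_ne_zero b p Sᶜ hR (right_ne_zero_of_mul h) i (Finset.mem_compl.2 hi)

theorem hasCompactSupport_ecut (b : OrthonormalBasis ι ℝ E) (p : E) (S : Finset ι) {L R : ℝ}
    (hL : 0 < L) (hR : 0 < R) : HasCompactSupport (ecut b p S L R) :=
  HasCompactSupport.intro (isCompact_box b p (rad S (2 * L) (2 * R))) fun x hx => by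
    by_contra h
    exact hx (ecut_ne_zero b p S hL hR h)

theorem ecut_one (b : OrthonormalBasis ι ℝ E) (p : E) (S : Finset ι) {L R : ℝ} (hL : 0 < L)
    (hR : 0 < R) {x : E} (hx : x ∈ box b p (rad S L R)) : ecut b p S L R x = 1 := by
  rw [ecut, pcut_one b p S hL (fun i hi => by simpa [rad, hi] using hx i),
    pcut_one b p Sᶜ hR (fun i hi => by simpa [rad, Finset.mem_compl.1 hi] using hx i), one_mul]

theorem abs_fderiv_ecut (b : OrthonormalBasis ι ℝ E) (p : E) (S : Finset ι) {L R : ℝ} (hR : 0 < R)
    (hRL : R ≤ L) (x : E) (j : ι) :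
    |fderiv ℝ (ecut b p S L R) x (b j)| ≤
      chiD / R * (box b p (rad S (2 * L) (2 * R))).indicator 1 x := by
  have hL : 0 < L := hR.trans_le hRL
  have hP := ((contDiff_pcut b p S L).differentiable one_ne_zero) x
  have hQ := ((contDiff_pcut b p Sᶜ R).differentiable one_ne_zero) x
  have hd : fderiv ℝ (ecut b p S L R) x (b j) =
      pcut b p S L x * fderiv ℝ (pcut b p Sᶜ R) x (b j) +
        pcut b p Sᶜ R x * fderiv ℝ (pcut b p S L) x (b j) := by
    rw [show ecut b p S L R = fun y => pcut b p S L y * pcut b p Sᶜ R y from rfl,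
      fderiv_fun_mul hP hQ]
    simp
  by_cases hne : fderiv ℝ (ecut b p S L R) x (b j) = 0
  · rw [hne, abs_zero]
    exact mul_nonneg (div_nonneg chiD_nonneg hR.le)
      (Set.indicator_nonneg (fun _ _ => zero_le_one) x)
  by_cases hj : j ∈ S
  · have h0 : fderiv ℝ (pcut b p Sᶜ R) x (b j) = 0 := by rw [fderiv_pcut, if_neg (by simp [hj])]
    rw [hd, h0, mul_zero, zero_add] at hne ⊢
    obtain ⟨hb, hs⟩ := abs_fderiv_pcut b p S hL x j
    have hx : x ∈ box b p (rad S (2 * L) (2 * R)) := fun i => by
      by_cases hi : i ∈ S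
      · simp only [rad, if_pos hi]; exact (hs (right_ne_zero_of_mul hne)).1 i hi
      · simp only [rad, if_neg hi]
        exact pcut_ne_zero b p Sᶜ hR (left_ne_zero_of_mul hne) i (Finset.mem_compl.2 hi)
    rw [Set.indicator_of_mem hx, Pi.one_apply, mul_one, abs_mul,
      abs_of_nonneg (pcut_nonneg b p _ R x)]
    exact (mul_le_of_le_one_left (abs_nonneg _) (pcut_le_one b p _ R x)).trans
      (hb.trans (div_le_div_of_nonneg_left chiD_nonneg hR hRL))
  · have h0 : fderiv ℝ (pcut b p S L) x (b j) = 0 := by rw [fderiv_pcut, if_neg hj]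
    rw [hd, h0, mul_zero, add_zero] at hne ⊢
    obtain ⟨hb, hs⟩ := abs_fderiv_pcut b p Sᶜ hR x j
    have hx : x ∈ box b p (rad S (2 * L) (2 * R)) := fun i => by
      by_cases hi : i ∈ S
      · simp only [rad, if_pos hi]; exact pcut_ne_zero b p S hL (left_ne_zero_of_mul hne) i hi
      · simp only [rad, if_neg hi]
        exact (hs (right_ne_zero_of_mul hne)).1 i (Finset.mem_compl.2 hi)
    rw [Set.indicator_of_mem hx, Pi.one_apply, mul_one, abs_mul,
      abs_of_nonneg (pcut_nonneg b p _ L x)]
    exact (mul_le_of_le_one_left (abs_nonneg _) (pcut_le_one b p _ L x)).trans hb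

/-- The absolute derivatives of a function, summed over the basis. -/
noncomputable def absGrad (b : OrthonormalBasis ι ℝ E) (f : E → ℝ) (x : E) : ℝ :=
  ∑ i, |fderiv ℝ f x (b i)|

theorem continuous_absGrad (b : OrthonormalBasis ι ℝ E) {f : E → ℝ} (hf : ContDiff ℝ 1 f) :
    Continuous (absGrad b f) :=
  continuous_finsetSum _ fun i _ => (continuous_fderiv_apply' hf (b i)).abs

theorem hasCompactSupport_absGrad (b : OrthonormalBasis ι ℝ E) {f : E → ℝ}
    (hc : HasCompactSupport f) : HasCompactSupport (absGrad b f) := by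
  refine (hc.fderiv (𝕜 := ℝ)).mono ?_
  intro x hx h0
  apply hx
  simp [absGrad, h0]

theorem abs_fderiv_le_absGrad (b : OrthonormalBasis ι ℝ E) (f : E → ℝ) (x : E) {a : E}
    (ha : ‖a‖ ≤ 1) : |fderiv ℝ f x a| ≤ absGrad b f x := by
  conv_lhs => rw [← b.sum_repr' a]
  rw [map_sum]
  refine (Finset.abs_sum_le_sum_abs _ _).trans (Finset.sum_le_sum fun i _ => ?_)
  rw [map_smul, smul_eq_mul, abs_mul]
  refine mul_le_of_le_one_left (abs_nonneg _) ((abs_real_inner_le_norm _ _).trans ?_)
  simpa using ha

theorem acW_nonneg (s : ℝ) : 0 ≤ acW s := by unfold acW; positivity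

theorem acW_le {s : ℝ} (hs : |s| ≤ 1) : acW s ≤ 1 := by
  have h1 : s ^ 2 ≤ 1 := by nlinarith [sq_abs s, abs_nonneg s]
  unfold acW
  nlinarith [sq_nonneg s]

theorem edens_nonneg (b : OrthonormalBasis ι ℝ E) (u : E → ℝ) (x : E) : 0 ≤ edens b u x :=
  add_nonneg (div_nonneg (gsq_nonneg b u x) zero_le_two) (acW_nonneg _)

theorem edens_le (b : OrthonormalBasis ι ℝ E) {u : E → ℝ} {M : ℝ} (hM : RegBd u M) {x : E}
    (hu : |u x| ≤ 1) : edens b u x ≤ Fintype.card ι * M ^ 2 + 1 := by
  refine add_le_add ?_ (acW_le hu)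
  have h : gsq b u x ≤ Fintype.card ι * M ^ 2 := by
    refine (Finset.sum_le_sum (g := fun _ => M ^ 2) fun i _ => ?_).trans (le_of_eq (by simp))
    rw [← sq_abs]
    refine pow_le_pow_left₀ (abs_nonneg _) ?_ 2
    simpa using hM.first x (b i)
  linarith [gsq_nonneg b u x]

theorem contDiff_acW : ContDiff ℝ 1 acW := by unfold acW; fun_prop

theorem contDiff_edens (b : OrthonormalBasis ι ℝ E) {u : E → ℝ} (hu : ContDiff ℝ 2 u) :
    ContDiff ℝ 1 (edens b u) := by
  have h1 : ContDiff ℝ 1 (gsq b u) := ContDiff.sum fun i _ => (contDiff_dd hu (b i)).pow 2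
  exact (h1.div_const 2).add (contDiff_acW.comp (hu.of_le (by norm_num)))

theorem fderiv_edens (b : OrthonormalBasis ι ℝ E) {u : E → ℝ} (hu : ContDiff ℝ 2 u) (x e : E) :
    fderiv ℝ (edens b u) x e =
      (∑ i, dd u (b i) x * hs u x e (b i)) + acF (u x) * dd u e x := by
  have hu1 : ContDiff ℝ 1 u := hu.of_le (by norm_num)
  have h1 : ∀ i, HasFDerivAt (fun y => dd u (b i) y * dd u (b i) y)
      (dd u (b i) x • fderiv ℝ (dd u (b i)) x + dd u (b i) x • fderiv ℝ (dd u (b i)) x) x := fun i =>
    ((contDiff_dd hu (b i)).differentiable one_ne_zero x).hasFDerivAt.mul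
      ((contDiff_dd hu (b i)).differentiable one_ne_zero x).hasFDerivAt
  have h2 := ((HasFDerivAt.fun_sum (u := Finset.univ) fun i _ => h1 i).const_mul (1 / 2 : ℝ)).add
    ((hasDerivAt_acW (u x)).comp_hasFDerivAt x (hu1.differentiable one_ne_zero x).hasFDerivAt)
  have he : edens b u =
      (fun y => (1 / 2 : ℝ) * ∑ i, dd u (b i) y * dd u (b i) y) + acW ∘ u := by
    funext y
    simp only [edens, gsq, dd, Pi.add_apply, Function.comp_apply, sq]
    ring
  rw [he, h2.fderiv]
  simp only [add_apply, smul_apply, sum_apply, smul_eq_mul,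
    fderiv_dd hu, dd]
  rw [Finset.sum_add_distrib]
  ring

/-- Interface theorem: energy in boxes grows like `L ^ #S * R ^ 2`. -/
theorem energy (b : OrthonormalBasis ι ℝ E) : EnergySpec b := by
  intro S i₀ τ u M ub hset hfront
  obtain ⟨a, ha, hedens⟩ := hfront
  have hu := hset.sol.smooth
  have hu1 : ContDiff ℝ 1 u := hu.of_le (by norm_num)
  have hub1 : ContDiff ℝ 1 ub := hset.profileSol.smooth.of_le (by norm_num)
  have hM0 := hset.reg.nonneg
  set e : E := b i₀
  refine ⟨6 * M * (Fintype.card ι * chiD * 4 ^ S.card * 4 ^ 3),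
    by have := chiD_nonneg; positivity, fun p L R hR hRL => ?_⟩
  have hR0 : 0 < R := lt_of_lt_of_le one_pos hR
  have hL0 : 0 < L := hR0.trans_le hRL
  set ζ : E → ℝ := ecut b p S L R
  have hζ : ContDiff ℝ 1 ζ := contDiff_ecut b p S L R
  have hζc : HasCompactSupport ζ := hasCompactSupport_ecut b p S hL0 hR0
  have hζ0 : ∀ x, 0 ≤ ζ x := ecut_nonneg b p S L R
  set Z : E → ℝ := absGrad b ζ
  have hZ : Continuous Z := continuous_absGrad b hζ
  have hZc : HasCompactSupport Z := hasCompactSupport_absGrad b hζc
  have hZi : Integrable Z := hZ.integrable_of_hasCompactSupport hZc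
  have hZ0 : ∀ x, 0 ≤ Z x := fun x => Finset.sum_nonneg fun i _ => abs_nonneg _
  set F : ℝ → ℝ := fun t => ∫ x, edens b u (x + t • e) * ζ x
  set H : ℝ → ℝ := fun t => ∫ x, u (x + t • e) * Z x
  have hed : Continuous (edens b u) := (contDiff_edens b hu).continuous
  -- almost monotonicity
  have hF : ∀ t : ℝ, HasDerivAt F (∫ x, fderiv ℝ (edens b u) (x + t • e) e * ζ x) t := fun t =>
    hasDerivAt_integral_shift (contDiff_edens b hu) hζ.continuous hζc e t
  have hH : ∀ t : ℝ, HasDerivAt H (∫ x, fderiv ℝ u (x + t • e) e * Z x) t := fun t =>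
    hasDerivAt_integral_shift hu1 hZ hZc e t
  have hineq : ∀ t : ℝ, 0 ≤ (∫ x, fderiv ℝ (edens b u) (x + t • e) e * ζ x) +
      M * ∫ x, fderiv ℝ u (x + t • e) e * Z x := by
    intro t
    set g : ι → E → ℝ := fun i x => dd u (b i) (x + t • e) * dd u e (x + t • e)
    have hg : ∀ i, ContDiff ℝ 1 (g i) := fun i =>
      ((contDiff_dd hu (b i)).comp (contDiff_id.add contDiff_const)).mul
        ((contDiff_dd hu e).comp (contDiff_id.add contDiff_const))
    have hgd : ∀ i x, fderiv ℝ (g i) x (b i) = hs u (x + t • e) (b i) (b i) * dd u e (x + t • e) +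
        dd u (b i) (x + t • e) * hs u (x + t • e) e (b i) := by
      intro i x
      have h1 := (HasFDerivAt.comp (f := fun y => y + t • e) x
        ((contDiff_dd hu (b i)).differentiable one_ne_zero (x + t • e)).hasFDerivAt
        ((hasFDerivAt_id x).add_const (t • e))).mul
        (HasFDerivAt.comp (f := fun y => y + t • e) x
        ((contDiff_dd hu e).differentiable one_ne_zero (x + t • e)).hasFDerivAt
        ((hasFDerivAt_id x).add_const (t • e)))
      rw [show g i = (dd u (b i) ∘ fun y => y + t • e) * (dd u e ∘ fun y => y + t • e) from rfl,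
        h1.fderiv]
      simp only [Function.comp_apply, add_apply,
        smul_apply, ContinuousLinearMap.comp_apply,
        ContinuousLinearMap.id_apply, smul_eq_mul, fderiv_dd hu]
      rw [hs_symm hu _ (b i) e]
      ring
    have hkey : ∀ x, fderiv ℝ (edens b u) (x + t • e) e * ζ x =
        ∑ i, fderiv ℝ (g i) x (b i) * ζ x := by
      intro x
      rw [← Finset.sum_mul]
      congr 1
      simp only [hgd, Finset.sum_add_distrib, ← Finset.sum_mul, hset.sol.eqn]
      rw [fderiv_edens b hu]
      ring
    have h1 : ∫ x, fderiv ℝ (edens b u) (x + t • e) e * ζ x =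
        -∫ x, ∑ i, g i x * fderiv ℝ ζ x (b i) := by
      rw [integral_congr_ae (Eventually.of_forall hkey), integral_finsetSum, integral_finsetSum,
        ← Finset.sum_neg_distrib]
      · exact Finset.sum_congr rfl fun i _ => ibp (hg i) hζ hζc (b i)
      · exact fun i _ => integrable_mul_cs (hg i).continuous (continuous_fderiv_apply' hζ (b i))
          (hasCompactSupport_fderiv_apply hζc (b i))
      · exact fun i _ => integrable_mul_cs (continuous_fderiv_apply' (hg i) (b i)) hζ.continuous hζc
    have hint : Integrable fun x => fderiv ℝ u (x + t • e) e * Z x :=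
      integrable_mul_cs ((continuous_fderiv_apply' hu1 e).comp (by fun_prop)) hZ hZc
    have hint2 : Integrable fun x => ∑ i, g i x * fderiv ℝ ζ x (b i) :=
      integrable_finsetSum _ fun i _ => integrable_mul_cs (hg i).continuous
        (continuous_fderiv_apply' hζ (b i)) (hasCompactSupport_fderiv_apply hζc (b i))
    have h2 : ∫ x, ∑ i, g i x * fderiv ℝ ζ x (b i) ≤
        ∫ x, M * (fderiv ℝ u (x + t • e) e * Z x) := by
      refine integral_mono hint2 (hint.const_mul M) fun x => ?_
      simp only [Z, absGrad, Finset.mul_sum]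
      refine Finset.sum_le_sum fun i _ => ?_
      have hv : 0 < fderiv ℝ u (x + t • e) e := hset.mono _
      calc g i x * fderiv ℝ ζ x (b i) ≤ |g i x * fderiv ℝ ζ x (b i)| := le_abs_self _
        _ = |fderiv ℝ u (x + t • e) (b i)| * fderiv ℝ u (x + t • e) e *
              |fderiv ℝ ζ x (b i)| := by simp only [g, dd, abs_mul, abs_of_pos hv]
        _ ≤ M * fderiv ℝ u (x + t • e) e * |fderiv ℝ ζ x (b i)| := by
            gcongr
            simpa using hset.reg.first (x + t • e) (b i)
        _ = _ := by ring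
    rw [integral_const_mul] at h2
    rw [h1]
    linarith
  have hmono : Monotone fun t => F t + M * H t :=
    monotone_of_deriv_nonneg (fun t => ((hF t).add ((hH t).const_mul M)).differentiableAt) fun t => by
      have hd : HasDerivAt (fun t => F t + M * H t) _ t := (hF t).add ((hH t).const_mul M)
      rw [hd.deriv]
      exact hineq t
  have hHb : ∀ t : ℝ, |H t| ≤ ∫ x, Z x := fun t => by
    refine (abs_integral_le_integral_abs).trans ?_
    refine integral_mono (integrable_mul_cs (hu1.continuous.comp (by fun_prop)) hZ hZc).abs hZi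
      fun x => ?_
    show |u (x + t • e) * Z x| ≤ Z x
    rw [abs_mul, abs_of_nonneg (hZ0 x)]
    exact mul_le_of_le_one_left (hZ0 x) (hset.sol.bound _)
  have hle : ∀ t : ℝ, 0 ≤ t → F 0 ≤ F t + 2 * M * ∫ x, Z x := by
    intro t ht
    have h := hmono ht
    have h0 := abs_le.1 (hHb 0)
    have h1 := abs_le.1 (hHb t)
    have := mul_le_mul_of_nonneg_left (show H t - H 0 ≤ 2 * ∫ x, Z x by linarith) hM0
    linarith
  -- the limit
  have hlim : Tendsto F atTop (𝓝 (∫ x, edens b ub x * ζ x)) := by
    refine tendsto_integral_filter_of_dominated_convergence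
      (fun x => (Fintype.card ι * M ^ 2 + 1) * ζ x)
      (Eventually.of_forall fun t => ((hed.comp (by fun_prop)).mul hζ.continuous).aestronglyMeasurable)
      (Eventually.of_forall fun t => Eventually.of_forall fun x => ?_)
      ((hζ.continuous.integrable_of_hasCompactSupport hζc).const_mul _)
      (Eventually.of_forall fun x => ?_)
    · rw [Real.norm_eq_abs, abs_of_nonneg (mul_nonneg (edens_nonneg b u _) (hζ0 x))]
      exact mul_le_mul_of_nonneg_right (edens_le b hset.reg (hset.sol.bound _)) (hζ0 x)
    · refine Tendsto.mul_const _ ?_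
      refine ((tendsto_finsetSum _ fun i _ => (hset.profile.first x (b i)).pow 2).div_const 2).add ?_
      exact (continuous_acW.tendsto _).comp (hset.profile.val x)
  have hprof : ∫ x, edens b ub x * ζ x ≤ M * ∫ x, Z x := by
    have hint : Integrable fun x => fderiv ℝ ub x a * ζ x :=
      integrable_mul_cs (continuous_fderiv_apply' hub1 a) hζ.continuous hζc
    calc ∫ x, edens b ub x * ζ x ≤ ∫ x, M * (fderiv ℝ ub x a * ζ x) := by
          refine integral_mono (integrable_mul_cs
            (contDiff_edens b hset.profileSol.smooth).continuous hζ.continuous hζc)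
            (hint.const_mul M) fun x => ?_
          show edens b ub x * ζ x ≤ M * (fderiv ℝ ub x a * ζ x)
          rw [← mul_assoc]
          exact mul_le_mul_of_nonneg_right (hedens x) (hζ0 x)
      _ = M * -∫ x, ub x * fderiv ℝ ζ x a := by rw [integral_const_mul, ibp hub1 hζ hζc a]
      _ ≤ M * ∫ x, Z x := by
          refine mul_le_mul_of_nonneg_left ?_ hM0
          rw [← integral_neg]
          refine integral_mono (integrable_mul_cs hub1.continuous (continuous_fderiv_apply' hζ a)
            (hasCompactSupport_fderiv_apply hζc a)).neg hZi fun x => ?_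
          refine (neg_le_abs _).trans ?_
          rw [abs_mul]
          exact (mul_le_of_le_one_left (abs_nonneg _) (hset.profileSol.bound x)).trans
            (abs_fderiv_le_absGrad b ζ x ha)
  have hF0 : F 0 ≤ 3 * M * ∫ x, Z x := by
    have := ge_of_tendsto (hlim.add_const (2 * M * ∫ x, Z x))
      ((eventually_ge_atTop 0).mono hle)
    linarith
  -- the cutoff
  set V : ℝ := (volume : Measure E).real (box b p (rad S (2 * L) (2 * R)))
  have hZV : ∫ x, Z x ≤ Fintype.card ι * (chiD / R) * V := by
    have hbox := (isClosed_box b p (rad S (2 * L) (2 * R))).measurableSet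
    have hbi : Integrable ((box b p (rad S (2 * L) (2 * R))).indicator fun _ => (1 : ℝ)) :=
      (integrableOn_const (isCompact_box b p _).measure_lt_top.ne).integrable_indicator hbox
    calc ∫ x, Z x ≤ ∫ x, Fintype.card ι * (chiD / R) *
          (box b p (rad S (2 * L) (2 * R))).indicator (fun _ => (1 : ℝ)) x := by
          refine integral_mono hZi (hbi.const_mul _) fun x => ?_
          refine (Finset.sum_le_sum fun i _ => abs_fderiv_ecut b p S hR0 hRL x i).trans ?_
          rw [Finset.sum_const, nsmul_eq_mul, Finset.card_univ, mul_assoc]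
          exact le_rfl
      _ = _ := by
          rw [integral_const_mul, integral_indicator_const _ hbox, smul_eq_mul, mul_one]
  have hV : V = (4 * L) ^ S.card * (4 * R) ^ 3 := by
    have e1 : ∏ i ∈ S, 2 * rad S (2 * L) (2 * R) i = (4 * L) ^ S.card := by
      rw [Finset.prod_congr rfl (g := fun _ => 4 * L) fun i hi => by simp [rad, hi]; ring,
        Finset.prod_const]
    have e2 : ∏ i ∈ Sᶜ, 2 * rad S (2 * L) (2 * R) i = (4 * R) ^ 3 := by
      rw [Finset.prod_congr rfl (g := fun _ => 4 * R) fun i hi => by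
        simp [rad, Finset.mem_compl.1 hi]; ring, Finset.prod_const, hset.three]
    simp only [V]
    rw [volume_box b p fun i => by unfold rad; split_ifs <;> positivity,
      ← Finset.prod_mul_prod_compl S, e1, e2]
  calc ∫ x in box b p (rad S L R), gsq b u x
      ≤ 2 * F 0 := by
        have hbox := (isClosed_box b p (rad S L R)).measurableSet
        have hg : IntegrableOn (gsq b u) (box b p (rad S L R)) :=
          (continuous_gsq b hu1).continuousOn.integrableOn_compact (isCompact_box b p _)
        have hprod : Integrable fun x => edens b u (x + (0 : ℝ) • e) * ζ x :=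
          integrable_mul_cs (hed.comp (by fun_prop)) hζ.continuous hζc
        rw [← integral_indicator hbox]
        simp only [F]
        rw [← integral_const_mul]
        refine integral_mono (hg.integrable_indicator hbox) (hprod.const_mul 2) fun x => ?_
        simp only [zero_smul, add_zero]
        by_cases hx : x ∈ box b p (rad S L R)
        · rw [Set.indicator_of_mem hx]
          have : ζ x = 1 := ecut_one b p S hL0 hR0 hx
          rw [this, edens]
          linarith [acW_nonneg (u x)]
        · rw [Set.indicator_of_notMem hx]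
          exact mul_nonneg zero_le_two (mul_nonneg (edens_nonneg b u x) (hζ0 x))
    _ ≤ 6 * M * (Fintype.card ι * (chiD / R) * V) := by
        linarith [mul_le_mul_of_nonneg_left hZV hM0]
    _ = _ := by
        rw [hV, mul_pow, mul_pow]
        field_simp

end Vale.Agent.P134P
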