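import Vale.Agent.P134P.Cutoff

/-! # P134: Liouville lemma with long periodic and two effective short directions -/

set_option linter.unusedSectionVars false

open scoped BigOperators RealInnerProductSpace
open Filter Topology MeasureTheory

namespace Vale.Agent.P134P

variable {E : Type*} [NormedAddCommGroup E] [InnerProductSpace ℝ E] [FiniteDimensional ℝ E]
  [MeasurableSpace E] [BorelSpace E]
  {ι : Type*} [Fintype ι] [DecidableEq ι]

/-- Growth `L ^ #S * R ^ 2` of the integrals of `ρ` over boxes around `p`. -/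
def BoxBound (b : OrthonormalBasis ι ℝ E) (p : E) (S : Finset ι) (ρ : E → ℝ) (C : ℝ) : Prop :=
  ∀ L R : ℝ, 1 ≤ R → R ≤ L → ∫ x in box b p (rad S L R), ρ x ≤ C * L ^ S.card * R ^ 2

theorem integral_gsq_zcut (b : OrthonormalBasis ι ℝ E) (p : E) (S : Finset ι) {ρ : E → ℝ}
    (hρ : Continuous ρ) (hρ0 : ∀ x, 0 ≤ ρ x) {C : ℝ} (_hC : 0 ≤ C) (hB : BoxBound b p S ρ C)
    {L : ℝ} {N : ℕ} (hN : 0 < N) (hL : (2 : ℝ) ^ N ≤ L) :
    ∫ x, gsq b (zcut b p S L N) x * ρ x ≤
      Fintype.card ι * chiD ^ 2 * C * (2 * L) ^ S.card * (((2 : ℝ) ^ N / L) ^ 2 + 4 / N) := by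
  have hL0 : 0 < L := lt_of_lt_of_le (by positivity) hL
  have hN' : (0 : ℝ) < N := by exact_mod_cast hN
  have hio : ∀ r, IntegrableOn ρ (box b p r) := fun r =>
    hρ.continuousOn.integrableOn_compact (isCompact_box b p r)
  have hint : ∀ r, Integrable ((box b p r).indicator ρ) := fun r =>
    (hio r).integrable_indicator (isClosed_box b p r).measurableSet
  have hval : ∀ r, ∫ x, (box b p r).indicator ρ x = ∫ x in box b p r, ρ x := fun r =>
    integral_indicator (isClosed_box b p r).measurableSet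
  set F : E → ℝ := fun x => Fintype.card ι * ((chiD / L) ^ 2 *
        (box b p (rad S (2 * L) (2 ^ N))).indicator ρ x
      + (∑ k ∈ Finset.range N, (chiD / 2 ^ k) ^ 2 *
          (box b p (rad S (2 * L) (2 ^ (k + 1)))).indicator ρ x) / (N : ℝ) ^ 2) with hF
  have hle : ∀ x, gsq b (zcut b p S L N) x * ρ x ≤ F x := by
    intro x
    have h := mul_le_mul_of_nonneg_right (gsq_zcut_le b p S hL0 N x) (hρ0 x)
    refine h.trans (le_of_eq ?_)
    have hi : ∀ r, (box b p r).indicator (1 : E → ℝ) x * ρ x = (box b p r).indicator ρ x := by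
      intro r
      by_cases hx : x ∈ box b p r <;> simp [hx]
    simp only [hF, add_mul, mul_assoc, div_mul_eq_mul_div, Finset.sum_mul, hi]
  have hs : Integrable (fun x => ∑ k ∈ Finset.range N, (chiD / 2 ^ k) ^ 2 *
      (box b p (rad S (2 * L) (2 ^ (k + 1)))).indicator ρ x) :=
    integrable_finsetSum _ fun k _ => (hint _).const_mul _
  have hFint : Integrable F :=
    (((hint _).const_mul _).add (hs.div_const _)).const_mul _
  have hleft : Integrable (fun x => gsq b (zcut b p S L N) x * ρ x) :=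
    ((continuous_gsq b (contDiff_zcut b p S L N)).mul hρ).integrable_of_hasCompactSupport
      (((hasCompactSupport_zcut b p S hL0 N).fderiv (𝕜 := ℝ)).mono (fun x hx h0 => hx (by
        simp [gsq, h0])))
  refine (integral_mono hleft hFint hle).trans ?_
  simp only [hF]
  rw [integral_const_mul, integral_add ((hint _).const_mul _) (hs.div_const _),
    integral_const_mul, integral_div, integral_finsetSum _ fun k _ => (hint _).const_mul _]
  simp only [integral_const_mul, hval]
  have hR1 : (1 : ℝ) ≤ 2 ^ N := one_le_pow₀ (by norm_num)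
  have h1 := hB (2 * L) (2 ^ N) hR1 (by linarith)
  have h2 : ∀ k ∈ Finset.range N, (chiD / 2 ^ k) ^ 2 *
      (∫ x in box b p (rad S (2 * L) (2 ^ (k + 1))), ρ x)
      ≤ 4 * chiD ^ 2 * (C * (2 * L) ^ S.card) := by
    intro k hk
    have hk2 : (2 : ℝ) ^ (k + 1) ≤ 2 ^ N :=
      pow_le_pow_right₀ (by norm_num) (Finset.mem_range.1 hk)
    have := hB (2 * L) (2 ^ (k + 1)) (one_le_pow₀ (by norm_num)) (by linarith)
    refine (mul_le_mul_of_nonneg_left this (sq_nonneg _)).trans (le_of_eq ?_)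
    rw [div_pow, pow_succ]
    field_simp
    ring
  have h3 := Finset.sum_le_sum h2
  rw [Finset.sum_const, Finset.card_range, nsmul_eq_mul] at h3
  have h4 : (∑ k ∈ Finset.range N, (chiD / 2 ^ k) ^ 2 *
      (∫ x in box b p (rad S (2 * L) (2 ^ (k + 1))), ρ x)) / (N : ℝ) ^ 2
      ≤ chiD ^ 2 * (C * (2 * L) ^ S.card) * (4 / N) := by
    refine (div_le_div_of_nonneg_right h3 (sq_nonneg _)).trans (le_of_eq ?_)
    field_simp
  have h5 : (chiD / L) ^ 2 * (∫ x in box b p (rad S (2 * L) (2 ^ N)), ρ x)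
      ≤ chiD ^ 2 * (C * (2 * L) ^ S.card) * ((2 : ℝ) ^ N / L) ^ 2 := by
    refine (mul_le_mul_of_nonneg_left h1 (sq_nonneg _)).trans (le_of_eq ?_)
    simp only [div_pow]
    ring
  calc _ ≤ (Fintype.card ι : ℝ) * (chiD ^ 2 * (C * (2 * L) ^ S.card) * ((2 : ℝ) ^ N / L) ^ 2
        + chiD ^ 2 * (C * (2 * L) ^ S.card) * (4 / N)) :=
      mul_le_mul_of_nonneg_left (add_le_add h5 h4) (Nat.cast_nonneg _)
    _ = _ := by ring

/-- Some lattice translate of a small ball carries little mass of `G`. -/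
theorem exists_small_translate (b : OrthonormalBasis ι ℝ E) (S : Finset ι) {a : ℕ}
    (ha : S.card = a) (τ : Fin a → E)
    (hτ : LinearIndependent ℝ τ) (hperp : ∀ j, ∀ i ∉ S, ⟪b i, τ j⟫ = 0) :
    ∃ r₀ > 0, ∀ (G ρ : E → ℝ) (C C' : ℝ) (p : E), Continuous G → (∀ x, 0 ≤ G x) →
      Continuous ρ → (∀ x, 0 ≤ ρ x) → 0 ≤ C → 0 ≤ C' → BoxBound b p S ρ C →
      (∀ ζ : E → ℝ, ContDiff ℝ 1 ζ → HasCompactSupport ζ →
        ∫ x, ζ x ^ 2 * G x ≤ C' * ∫ x, gsq b ζ x * ρ x) →
      ∀ r, 0 < r → r ≤ r₀ → ∀ ε > 0,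
        ∃ k : Fin a → ℕ, ∫ x in Metric.closedBall (p + ∑ j, (k j : ℝ) • τ j) r, G x < ε := by
  subst ha
  set φ : (Fin S.card → ℝ) →ₗ[ℝ] E :=
    ∑ j, (LinearMap.proj j).smulRight (τ j) with hφ
  have hφv : ∀ v, φ v = ∑ j, v j • τ j := fun v => by simp [hφ]
  have hker : LinearMap.ker φ = ⊥ := by
    rw [LinearMap.ker_eq_bot']
    intro v hv
    rw [hφv] at hv
    exact funext (Fintype.linearIndependent_iff.1 hτ v hv)
  obtain ⟨K0, hK0, hanti⟩ := φ.exists_antilipschitzWith hker
  have hK0' : (0 : ℝ) < K0 := by exact_mod_cast hK0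
  refine ⟨min (1 / 4) (1 / (3 * K0)), lt_min (by norm_num) (by positivity), ?_⟩
  intro G ρ C C' p hG hG0 hρ hρ0 hC hC' hB hineq r hr hrle ε hε
  by_contra hcon
  push Not at hcon
  set T : ℝ := ∑ j, ‖τ j‖ with hT
  have hT0 : 0 ≤ T := Finset.sum_nonneg fun j _ => norm_nonneg _
  set Q : ℝ := C' * (Fintype.card ι * chiD ^ 2 * C * (2 * (T + 1)) ^ S.card * 5) with hQ
  obtain ⟨N, hN⟩ := exists_nat_gt (Q / ε)
  have hQ0 : 0 ≤ Q := by positivity
  have hN0 : 0 < N := by
    have : (0 : ℝ) < N := lt_of_le_of_lt (by positivity) hN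
    exact_mod_cast this
  set K : ℕ := 2 ^ N * N with hK
  set L : ℝ := ((K : ℝ) + 1) * (T + 1) with hL
  have hL2 : (2 : ℝ) ^ N * N ≤ L := by
    have h1 : (2 : ℝ) ^ N * N = (K : ℝ) := by push_cast [hK]; ring
    nlinarith [Nat.cast_nonneg (α := ℝ) K]
  have hN1 : (1 : ℝ) ≤ N := by exact_mod_cast hN0
  have hLN : (2 : ℝ) ^ N ≤ L := le_trans (le_mul_of_one_le_right (by positivity) hN1) hL2
  have hL0 : 0 < L := by positivity
  set J := Fintype.piFinset fun _ : Fin S.card => Finset.range (K + 1) with hJ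
  set c : (Fin S.card → ℕ) → E := fun k => p + ∑ j, (k j : ℝ) • τ j with hc
  have hsub : ∀ k ∈ J, Metric.closedBall (c k) r ⊆ box b p (rad S L 1) := by
    intro k hk x hx i
    rw [Metric.mem_closedBall, dist_eq_norm] at hx
    have hk' : ∀ j, (k j : ℝ) ≤ K := fun j => by
      have h := Fintype.mem_piFinset.1 hk j
      exact_mod_cast Nat.lt_succ_iff.1 (Finset.mem_range.1 h)
    have hsplit : co b p i x = co b (c k) i x + ∑ j, (k j : ℝ) * ⟪b i, τ j⟫ := by
      simp only [co, hc, inner_sub_right, inner_add_right, inner_sum, inner_smul_right]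
      ring
    have hr4 : r ≤ 1 / 4 := hrle.trans (min_le_left _ _)
    have hco : |co b (c k) i x| ≤ r := (abs_co_le b (c k) x i).trans hx
    by_cases hi : i ∈ S
    · simp only [rad, if_pos hi]
      rw [hsplit]
      have h1 : |∑ j, (k j : ℝ) * ⟪b i, τ j⟫| ≤ K * T := by
        rw [hT, Finset.mul_sum]
        refine (Finset.abs_sum_le_sum_abs _ _).trans (Finset.sum_le_sum fun j _ => ?_)
        rw [abs_mul, abs_of_nonneg (Nat.cast_nonneg _)]
        refine mul_le_mul (hk' j) ?_ (abs_nonneg _) (Nat.cast_nonneg _)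
        exact (abs_real_inner_le_norm _ _).trans (by simp)
      refine (abs_add_le _ _).trans ?_
      nlinarith [Nat.cast_nonneg (α := ℝ) K]
    · simp only [rad, if_neg hi]
      rw [hsplit, Finset.sum_eq_zero fun j _ => by rw [hperp j i hi, mul_zero], add_zero]
      linarith
  have hdis : (J : Set (Fin S.card → ℕ)).PairwiseDisjoint fun k => Metric.closedBall (c k) r := by
    intro k _ l _ hkl
    refine Metric.closedBall_disjoint_closedBall ?_
    set v : Fin S.card → ℝ := fun j => (k j : ℝ) - l j with hv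
    have h1 : 1 ≤ ‖v‖ := by
      obtain ⟨j, hj⟩ := Function.ne_iff.1 hkl
      refine le_trans ?_ (norm_le_pi_norm v j)
      simp only [hv, Real.norm_eq_abs]
      have : (1 : ℤ) ≤ |(k j : ℤ) - l j| := Int.one_le_abs (by omega)
      exact_mod_cast this
    have h2 := hanti.le_mul_dist v 0
    rw [map_zero, dist_zero_right, dist_zero_right, hφv] at h2
    have h3 : c k - c l = ∑ j, v j • τ j := by
      simp [hc, hv, sub_smul, Finset.sum_sub_distrib]
    rw [dist_eq_norm, h3]
    have h4 : r ≤ 1 / (3 * K0) := hrle.trans (min_le_right _ _)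
    rw [le_div_iff₀ (by positivity)] at h4
    by_contra h5
    push Not at h5
    nlinarith
  have hcd := contDiff_zcut b p S L N
  have hcs := hasCompactSupport_zcut b p S hL0 N
  have hint : Integrable (fun x => zcut b p S L N x ^ 2 * G x) :=
    ((hcd.continuous.pow 2).mul hG).integrable_of_hasCompactSupport
      (hcs.mono (fun x hx h0 => hx (by simp [h0])))
  have hlow : (((K + 1) ^ S.card : ℕ) : ℝ) * ε ≤ ∫ x, zcut b p S L N x ^ 2 * G x := by
    have hcard : J.card = (K + 1) ^ S.card := by simp [hJ]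
    calc (((K + 1) ^ S.card : ℕ) : ℝ) * ε = ∑ _k ∈ J, ε := by simp [hcard]
      _ ≤ ∑ k ∈ J, ∫ x in Metric.closedBall (c k) r, zcut b p S L N x ^ 2 * G x := by
          refine Finset.sum_le_sum fun k hk => ?_
          refine (hcon k).trans (le_of_eq ?_)
          refine setIntegral_congr_fun measurableSet_closedBall fun x hx => ?_
          simp [zcut_one b p S hL0 hN0 (hsub k hk hx)]
      _ = ∫ x in ⋃ k ∈ J, Metric.closedBall (c k) r, zcut b p S L N x ^ 2 * G x :=
          (integral_biUnion_finset J (fun _ _ => measurableSet_closedBall) hdis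
            fun _ _ => hint.integrableOn).symm
      _ ≤ ∫ x, zcut b p S L N x ^ 2 * G x :=
          setIntegral_le_integral hint
            (Filter.Eventually.of_forall fun x => mul_nonneg (sq_nonneg _) (hG0 x))
  have hup := (hineq _ hcd hcs).trans
    (mul_le_mul_of_nonneg_left (integral_gsq_zcut b p S hρ hρ0 hC hB hN0 hLN) hC')
  have hfrac : ((2 : ℝ) ^ N / L) ^ 2 + 4 / N ≤ 5 / N := by
    have h1 : (2 : ℝ) ^ N / L ≤ 1 / N := by
      rw [div_le_div_iff₀ hL0 (by positivity)]
      linarith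
    have h2 : ((2 : ℝ) ^ N / L) ^ 2 ≤ 1 / N := by
      refine le_trans (pow_le_pow_left₀ (by positivity) h1 2) ?_
      rw [sq]
      exact mul_le_of_le_one_right (by positivity) (by rw [div_le_one (by positivity)]; exact hN1)
    have h3 : (5 : ℝ) / N = 1 / N + 4 / N := by ring
    linarith
  have hM : (((K + 1) ^ S.card : ℕ) : ℝ) * ε ≤ (((K + 1) ^ S.card : ℕ) : ℝ) * (Q / N) := by
    refine (hlow.trans hup).trans ?_
    have hpow : (2 * L) ^ S.card = ((K : ℝ) + 1) ^ S.card * (2 * (T + 1)) ^ S.card := by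
      rw [hL, ← mul_pow]; ring
    rw [hpow, hQ]
    push_cast
    calc _ ≤ C' * (Fintype.card ι * chiD ^ 2 * C *
          (((K : ℝ) + 1) ^ S.card * (2 * (T + 1)) ^ S.card) * (5 / N)) :=
        mul_le_mul_of_nonneg_left (mul_le_mul_of_nonneg_left hfrac (by positivity)) hC'
      _ = _ := by ring
  have hpos : (0 : ℝ) < (((K + 1) ^ S.card : ℕ) : ℝ) := by positivity
  have := le_of_mul_le_mul_left hM hpos
  rw [le_div_iff₀ (by positivity)] at this
  rw [div_lt_iff₀ hε] at hN
  linarith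

theorem setIntegral_ball_shift (G : E → ℝ) (p w : E) (r : ℝ) :
    ∫ x in Metric.closedBall (p + w) r, G x = ∫ x in Metric.closedBall p r, G (x + w) := by
  rw [← (measurePreserving_add_right (volume : Measure E) w).setIntegral_preimage_emb
    (MeasurableEquiv.addRight w).measurableEmbedding G (Metric.closedBall (p + w) r)]
  congr 2
  ext x
  simp [Metric.mem_closedBall, dist_eq_norm]

theorem shift_periodic {a : ℕ} {G : E → ℝ} {τ : Fin a → E} (h : ∀ j x, G (x + τ j) = G x)
    (k : Fin a → ℕ) (x : E) : G (x + ∑ j, (k j : ℝ) • τ j) = G x := by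
  have h1 : ∀ (j : Fin a) (n : ℕ) (y : E), G (y + (n : ℝ) • τ j) = G y := by
    intro j n
    induction n with
    | zero => simp
    | succ n ih =>
      intro y
      rw [Nat.cast_succ, add_smul, one_smul, ← add_assoc, h j, ih]
  suffices H : ∀ (s : Finset (Fin a)) (y : E), G (y + ∑ j ∈ s, (k j : ℝ) • τ j) = G y from H _ x
  intro s
  induction s using Finset.induction with
  | empty => simp
  | insert j s hj ih =>
    intro y
    rw [Finset.sum_insert hj, ← add_assoc, ih, h1]

theorem eq_zero_of_small {G : E → ℝ} (hG : Continuous G) (h0 : ∀ x, 0 ≤ G x) {p : E} {r : ℝ}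
    (hr : 0 < r) (h : ∀ ε > 0, ∫ x in Metric.closedBall p r, G x ≤ ε) : G p = 0 := by
  by_contra hne
  have hpos : 0 < G p := lt_of_le_of_ne (h0 p) (Ne.symm hne)
  obtain ⟨δ, hδ, hδG⟩ := Metric.continuous_iff.1 hG p (G p / 2) (half_pos hpos)
  set r' := min r (δ / 2) with hr'
  have hr'0 : 0 < r' := lt_min hr (half_pos hδ)
  have hio : ∀ s, IntegrableOn G (Metric.closedBall p s) := fun s =>
    hG.continuousOn.integrableOn_compact (isCompact_closedBall p s)
  have hfin : (volume : Measure E) (Metric.closedBall p r') ≠ ⊤ := measure_closedBall_lt_top.ne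
  have h1 : G p / 2 * (volume : Measure E).real (Metric.closedBall p r')
      ≤ ∫ x in Metric.closedBall p r', G x := by
    have h2 : ∀ x ∈ Metric.closedBall p r', G p / 2 ≤ G x := by
      intro x hx
      have h3 : dist x p < δ := by
        have := (Metric.mem_closedBall.1 hx).trans (min_le_right _ _)
        linarith
      have := hδG x h3
      rw [Real.dist_eq, abs_lt] at this
      linarith
    exact setIntegral_ge_of_const_le_real measurableSet_closedBall hfin h2 (hio _)
  have h4 : ∫ x in Metric.closedBall p r', G x ≤ ∫ x in Metric.closedBall p r, G x :=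
    setIntegral_mono_set (hio r) (Filter.Eventually.of_forall h0)
      (Filter.Eventually.of_forall (Metric.closedBall_subset_closedBall (min_le_left _ _)))
  have hv : 0 < (volume : Measure E).real (Metric.closedBall p r') :=
    ENNReal.toReal_pos (Metric.measure_closedBall_pos volume p hr'0).ne' hfin
  have h5 : 0 < G p / 2 * (volume : Measure E).real (Metric.closedBall p r') :=
    mul_pos (half_pos hpos) hv
  have := h _ (half_pos h5)
  linarith

/-- Periodic Liouville lemma. -/
theorem liouville (b : OrthonormalBasis ι ℝ E) (S : Finset ι) {a : ℕ} (ha : S.card = a)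
    (τ : Fin a → E)
    (hτ : LinearIndependent ℝ τ) (hperp : ∀ j, ∀ i ∉ S, ⟪b i, τ j⟫ = 0)
    {G ρ : E → ℝ} (hG : Continuous G) (hG0 : ∀ x, 0 ≤ G x) (hρ : Continuous ρ)
    (hρ0 : ∀ x, 0 ≤ ρ x) {C C' : ℝ} (hC : 0 ≤ C) (hC' : 0 ≤ C')
    (hB : ∀ p, BoxBound b p S ρ C)
    (hineq : ∀ ζ : E → ℝ, ContDiff ℝ 1 ζ → HasCompactSupport ζ →
        ∫ x, ζ x ^ 2 * G x ≤ C' * ∫ x, gsq b ζ x * ρ x)
    (hper : ∀ j x, G (x + τ j) = G x) : ∀ p, G p = 0 := by
  obtain ⟨r₀, hr₀, H⟩ := exists_small_translate b S ha τ hτ hperp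
  intro p
  refine eq_zero_of_small hG hG0 hr₀ fun ε hε => ?_
  obtain ⟨k, hk⟩ := H G ρ C C' p hG hG0 hρ hρ0 hC hC' (hB p) hineq r₀ hr₀ le_rfl ε hε
  rw [setIntegral_ball_shift] at hk
  simp only [shift_periodic hper k] at hk
  exact hk.le

end Vale.Agent.P134P
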