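import Vale.Agent.P134P.Calc

/-! # P134: a limit profile with parallel gradients and no degenerate flat level set is a front -/

set_option linter.unusedSectionVars false

open scoped BigOperators RealInnerProductSpace
open Filter Topology Set

namespace Vale.Agent.P134P

variable {E : Type*} [NormedAddCommGroup E] [InnerProductSpace ℝ E] [FiniteDimensional ℝ E]
  {ι : Type*} [Fintype ι]

/-- All directional derivatives have proportional gradients. -/
def Parallel (ub : E → ℝ) : Prop :=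
  ∀ x a c d, fderiv ℝ ub x a * hs ub x d c = fderiv ℝ ub x c * hs ub x d a

/-- No hyperplane of critical points carries a nonzero constant normal second derivative. -/
def NoDegen (ub : E → ℝ) : Prop :=
  ∀ (p a : E) (κ : ℝ), ‖a‖ = 1 → (∀ y, ⟪a, y⟫ = 0 → ∀ c, fderiv ℝ ub (p + y) c = 0) →
    (∀ y, ⟪a, y⟫ = 0 → hs ub (p + y) a a = κ) → κ = 0

theorem hasDerivAt_line_val {ub : E → ℝ} (hu : ContDiff ℝ 2 ub) (x d : E) (t : ℝ) :
    HasDerivAt (fun s : ℝ => ub (x + s • d)) (fderiv ℝ ub (x + t • d) d) t := by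
  have h1 : HasDerivAt (fun s : ℝ => x + s • d) d t := by
    simpa using ((hasDerivAt_id t).smul_const d).const_add x
  exact (((hu.of_le (by norm_num : (1 : WithTop ℕ∞) ≤ 2)).differentiable one_ne_zero)
    _).hasFDerivAt.comp_hasDerivAt t h1

theorem hasDerivAt_line_dd {ub : E → ℝ} (hu : ContDiff ℝ 2 ub) (x d c : E) (t : ℝ) :
    HasDerivAt (fun s : ℝ => fderiv ℝ ub (x + s • d) c) (hs ub (x + t • d) d c) t := by
  have h1 : HasDerivAt (fun s : ℝ => x + s • d) d t := by
    simpa using ((hasDerivAt_id t).smul_const d).const_add x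
  have h2 := (((contDiff_dd hu c).differentiable one_ne_zero) _).hasFDerivAt.comp_hasDerivAt t h1
  rw [fderiv_dd hu] at h2
  exact h2

theorem inner_self_one {a : E} (ha : ‖a‖ = 1) : ⟪a, a⟫ = 1 := by
  rw [real_inner_self_eq_norm_sq, ha]; norm_num

theorem fderiv_split {ub : E → ℝ} {a x : E} (ha : ‖a‖ = 1)
    (h : ∀ c, ⟪a, c⟫ = 0 → fderiv ℝ ub x c = 0) (c : E) :
    fderiv ℝ ub x c = ⟪a, c⟫ * fderiv ℝ ub x a := by
  have h0 := h (c - ⟪a, c⟫ • a)
    (by rw [inner_sub_right, inner_smul_right, inner_self_one ha]; ring)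
  rw [map_sub, map_smul, smul_eq_mul] at h0
  linarith

theorem hess_perp {ub : E → ℝ} (hP : Parallel ub) {a x : E} (hne : fderiv ℝ ub x a ≠ 0)
    (h : ∀ c, ⟪a, c⟫ = 0 → fderiv ℝ ub x c = 0) (d c : E) (hc : ⟪a, c⟫ = 0) :
    hs ub x d c = 0 := by
  have h1 := hP x a c d
  rw [h c hc, zero_mul] at h1
  exact (mul_eq_zero.1 h1).resolve_left hne

theorem hess_aa {b : OrthonormalBasis ι ℝ E} {ub : E → ℝ} (hsol : IsSol b ub) (hP : Parallel ub)
    {a x : E} (ha : ‖a‖ = 1) (hne : fderiv ℝ ub x a ≠ 0)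
    (h : ∀ c, ⟪a, c⟫ = 0 → fderiv ℝ ub x c = 0) : hs ub x a a = acF (ub x) := by
  have key : ∀ d c, hs ub x d c = ⟪a, d⟫ * ⟪a, c⟫ * hs ub x a a := by
    intro d c
    have e1 : hs ub x d c = ⟪a, c⟫ * hs ub x d a := by
      have h0 := hess_perp hP hne h d (c - ⟪a, c⟫ • a)
        (by rw [inner_sub_right, inner_smul_right, inner_self_one ha]; ring)
      simp only [hs, map_sub, map_smul, smul_eq_mul] at h0 ⊢
      linarith
    have e2 : hs ub x d a = ⟪a, d⟫ * hs ub x a a := by
      rw [hs_symm hsol.smooth x d a]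
      have h0 := hess_perp hP hne h a (d - ⟪a, d⟫ • a)
        (by rw [inner_sub_right, inner_smul_right, inner_self_one ha]; ring)
      simp only [hs, map_sub, map_smul, smul_eq_mul] at h0 ⊢
      linarith
    rw [e1, e2]; ring
  have hsum : ∑ i, ⟪a, b i⟫ * ⟪a, b i⟫ = 1 := by
    have := b.sum_inner_mul_inner a a
    simp only [real_inner_comm a] at this ⊢
    rw [inner_self_one ha] at this
    exact this
  have := hsol.eqn x
  simp only [key (b _) (b _)] at this
  rw [← Finset.sum_mul, hsum, one_mul] at this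
  exact this

/-- The gradient stays parallel along a segment on which it does not vanish. -/
theorem perp_propagate {ub : E → ℝ} (hu : ContDiff ℝ 2 ub) (hP : Parallel ub) {a q d : E}
    {T : ℝ} (hne : ∀ s ∈ Ico (0 : ℝ) T, fderiv ℝ ub (q + s • d) a ≠ 0)
    (h0 : ∀ c, ⟪a, c⟫ = 0 → fderiv ℝ ub q c = 0) :
    ∀ s ∈ Ico (0 : ℝ) T, ∀ c, ⟪a, c⟫ = 0 → fderiv ℝ ub (q + s • d) c = 0 := by
  intro s hs' c hc
  have hd : ∀ t ∈ Icc (0 : ℝ) s, HasDerivAt
      (fun r : ℝ => fderiv ℝ ub (q + r • d) c / fderiv ℝ ub (q + r • d) a) 0 t := by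
    intro t ht
    have hnet := hne t ⟨ht.1, lt_of_le_of_lt ht.2 hs'.2⟩
    refine ((hasDerivAt_line_dd hu q d c t).div (hasDerivAt_line_dd hu q d a t) hnet).congr_deriv ?_
    have := hP (q + t • d) a c d
    rw [div_eq_zero_iff]
    left
    linarith
  have hconst := constant_of_has_deriv_right_zero
    (f := fun r : ℝ => fderiv ℝ ub (q + r • d) c / fderiv ℝ ub (q + r • d) a)
    (fun t ht => (hd t ht).continuousAt.continuousWithinAt)
    (fun t ht => (hd t (Ico_subset_Icc_self ht)).hasDerivWithinAt) s (right_mem_Icc.2 hs'.1)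
  simp only [zero_smul, add_zero, h0 c hc, zero_div] at hconst
  exact (div_eq_zero_iff.1 hconst).resolve_right (hne s hs')

theorem exists_first_zero {g : ℝ → ℝ} (hg : Continuous g) (h0 : g 0 ≠ 0) {S : ℝ} (hS : 0 ≤ S)
    (hz : g S = 0) : ∃ s, 0 < s ∧ s ≤ S ∧ g s = 0 ∧ ∀ t ∈ Ico (0 : ℝ) s, g t ≠ 0 := by
  have hK : IsCompact (Icc (0 : ℝ) S ∩ g ⁻¹' {0}) :=
    isCompact_Icc.inter_right (isClosed_singleton.preimage hg)
  obtain ⟨s, ⟨hsI, hgs⟩, hmin⟩ :=
    hK.exists_isLeast ⟨S, ⟨hS, le_rfl⟩, by simpa using hz⟩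
  refine ⟨s, lt_of_le_of_ne hsI.1 fun h => h0 (h ▸ hgs), hsI.2, hgs, fun t ht hgt => ?_⟩
  exact absurd (hmin ⟨⟨ht.1, ht.2.le.trans hsI.2⟩, hgt⟩) (not_le.2 ht.2)

/-- Propagation along a hyperplane orthogonal to the gradient. -/
theorem plane {ub : E → ℝ} (hu : ContDiff ℝ 2 ub) (hP : Parallel ub) {a q : E} (ha : ‖a‖ = 1)
    (hne : fderiv ℝ ub q a ≠ 0) (h0 : ∀ c, ⟪a, c⟫ = 0 → fderiv ℝ ub q c = 0) {y : E}
    (hy : ⟪a, y⟫ = 0) :
    (∀ c, fderiv ℝ ub (q + y) c = ⟪a, c⟫ * fderiv ℝ ub q a) ∧ ub (q + y) = ub q := by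
  set g : ℝ → ℝ := fun s => fderiv ℝ ub (q + s • y) a with hg
  have hgc : Continuous g :=
    continuous_iff_continuousAt.2 fun s => (hasDerivAt_line_dd hu q y a s).continuousAt
  have hconst : ∀ s, 0 ≤ s → (∀ t ∈ Ico (0 : ℝ) s, g t ≠ 0) → g s = g 0 := by
    intro s hs' hnz
    refine constant_of_has_deriv_right_zero hgc.continuousOn (fun t ht => ?_) s
      (right_mem_Icc.2 hs')
    have hperp := perp_propagate hu hP hnz h0 t ht
    have h1 : hs ub (q + t • y) y a = 0 := by
      rw [hs_symm hu (q + t • y) y a]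
      exact hess_perp hP (hnz t ht) hperp a y hy
    exact (h1 ▸ hasDerivAt_line_dd hu q y a t).hasDerivWithinAt
  have hnz : ∀ s, 0 ≤ s → g s ≠ 0 := by
    intro s hs' hz
    obtain ⟨s0, hs0, -, hg0, hbefore⟩ :=
      exists_first_zero hgc (by simpa [hg] using hne) hs' hz
    have := hconst s0 hs0.le hbefore
    rw [hg0] at this
    exact hne (by simpa [hg] using this.symm)
  have hall : ∀ s, 0 ≤ s → g s = g 0 := fun s hs' => hconst s hs' fun t ht => hnz t ht.1
  have hperp := perp_propagate hu hP (T := 2) (fun t ht => hnz t ht.1) h0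
  refine ⟨fun c => ?_, ?_⟩
  · have h1 := fderiv_split ha (hperp 1 ⟨zero_le_one, one_lt_two⟩) c
    have h2 := hall 1 zero_le_one
    simp only [hg, one_smul, zero_smul, add_zero] at h1 h2
    rw [h1, h2]
  · have hd : ∀ t ∈ Ico (0 : ℝ) 1, HasDerivWithinAt (fun s : ℝ => ub (q + s • y)) 0 (Ici t) t := by
      intro t ht
      have h1 := hperp t ⟨ht.1, lt_trans ht.2 one_lt_two⟩ y hy
      exact (h1 ▸ hasDerivAt_line_val hu q y t).hasDerivWithinAt
    have := constant_of_has_deriv_right_zero (f := fun s : ℝ => ub (q + s • y))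
      (fun t _ => (hasDerivAt_line_val hu q y t).continuousAt.continuousWithinAt) hd 1
      (right_mem_Icc.2 zero_le_one)
    simpa using this

theorem acW_sub_le {h q : ℝ} (hh : |h| ≤ 1) (hq : acF q = 0) : acW h - acW q ≤ (h - q) ^ 2 := by
  have hf : q * (q - 1) * (q + 1) = 0 := by unfold acF at hq; linarith
  obtain ⟨h1, h2⟩ := abs_le.1 hh
  have hp : 0 ≤ 1 - h ^ 2 := by nlinarith
  rcases mul_eq_zero.1 hf with hf | hf
  · rcases mul_eq_zero.1 hf with hf | hf
    · subst hf
      simp only [acW]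
      nlinarith [sq_nonneg h]
    · obtain rfl : q = 1 := by linarith
      simp only [acW]
      have h3 : (1 + h) ^ 2 ≤ 4 := by nlinarith
      nlinarith [mul_le_mul_of_nonneg_left h3 (sq_nonneg (1 - h))]
  · obtain rfl : q = -1 := by linarith
    simp only [acW]
    have h3 : (1 - h) ^ 2 ≤ 4 := by nlinarith
    nlinarith [mul_le_mul_of_nonneg_left h3 (sq_nonneg (1 + h))]

/-- The gradient never vanishes along the half line. -/
theorem half_line {b : OrthonormalBasis ι ℝ E} {ub : E → ℝ} (hsol : IsSol b ub) (hP : Parallel ub)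
    (hN : NoDegen ub) {a x₀ : E} (ha : ‖a‖ = 1) (hne : fderiv ℝ ub x₀ a ≠ 0)
    (h0 : ∀ c, ⟪a, c⟫ = 0 → fderiv ℝ ub x₀ c = 0) :
    ∀ s : ℝ, 0 ≤ s → fderiv ℝ ub (x₀ + s • a) a ≠ 0 := by
  have hu := hsol.smooth
  intro s hs' hz
  set g : ℝ → ℝ := fun t => fderiv ℝ ub (x₀ + t • a) a with hg
  have hgc : Continuous g :=
    continuous_iff_continuousAt.2 fun t => (hasDerivAt_line_dd hu x₀ a a t).continuousAt
  obtain ⟨S, hS, -, hgS, hbefore⟩ := exists_first_zero hgc (by simpa [hg] using hne) hs' hz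
  have hperp := perp_propagate hu hP hbefore h0
  have hg' : ∀ t ∈ Ico (0 : ℝ) S, HasDerivAt g (acF (ub (x₀ + t • a))) t := fun t ht => by
    rw [← hess_aa hsol hP ha (hbefore t ht) (hperp t ht)]
    exact hasDerivAt_line_dd hu x₀ a a t
  -- limit at the end point
  have hcl : S ∈ closure (Ico (0 : ℝ) S) := by
    rw [closure_Ico hS.ne]; exact right_mem_Icc.2 hS.le
  have hext : ∀ F G : ℝ → ℝ, Continuous F → Continuous G →
      (∀ t ∈ Ico (0 : ℝ) S, F t = G t) → F S = G S := fun F G hF hG hFG =>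
    (Set.EqOn.closure hFG hF hG) hcl
  have hline : ∀ y : E, Continuous (fun t : ℝ => x₀ + t • a + y) := fun y => by fun_prop
  have hq : acF (ub (x₀ + S • a)) = 0 := by
    refine hN (x₀ + S • a) a _ ha (fun y hy c => ?_) fun y hy => ?_
    · have := hext (fun t => fderiv ℝ ub (x₀ + t • a + y) c) (fun t => ⟪a, c⟫ * g t)
        ((continuous_fderiv_apply' (hu.of_le (by norm_num)) c).comp (hline y))
        (continuous_const.mul hgc) fun t ht =>
          (plane hu hP ha (hbefore t ht) (hperp t ht) hy).1 c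
      simpa [hgS] using this
    · refine hext (fun t => hs ub (x₀ + t • a + y) a a) (fun t => acF (ub (x₀ + t • a)))
        ((continuous_hs hu a a).comp (hline y))
        (continuous_acF.comp (hu.continuous.comp (by fun_prop))) fun t ht => ?_
      obtain ⟨hD, hv⟩ := plane hu hP ha (hbefore t ht) (hperp t ht) hy
      rw [hess_aa hsol hP ha ?_ ?_, hv]
      · rw [hD a, inner_self_one ha, one_mul]; exact hbefore t ht
      · intro c hc; rw [hD c, hc, zero_mul]
  -- first integral
  set h : ℝ → ℝ := fun t => ub (x₀ + t • a) with hh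
  have hh' : ∀ t, HasDerivAt h (g t) t := fun t => hasDerivAt_line_val hu x₀ a t
  have hhc : Continuous h := continuous_iff_continuousAt.2 fun t => (hh' t).continuousAt
  set F : ℝ → ℝ := fun t => g t ^ 2 - 2 * acW (h t) with hF
  have hFd : ∀ t ∈ Ico (0 : ℝ) S, HasDerivWithinAt F 0 (Ici t) t := by
    intro t ht
    have h1 := ((hg' t ht).pow 2).sub
      (((hasDerivAt_acW (h t)).comp t (hh' t)).const_mul 2)
    refine HasDerivAt.hasDerivWithinAt (h1.congr_deriv ?_)
    simp only [Nat.cast_ofNat, Nat.add_one_sub_one, pow_one, hh]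
    ring
  have hFc : Continuous F := (hgc.pow 2).sub (continuous_const.mul (continuous_acW.comp hhc))
  have hFconst := constant_of_has_deriv_right_zero hFc.continuousOn hFd
  have hgbd : ∀ t ∈ Icc (0 : ℝ) S, |g t| ≤ 2 * |h t - h S| := by
    intro t ht
    have e1 := hFconst t ht
    have e2 := hFconst S (right_mem_Icc.2 hS.le)
    have e3 : g t ^ 2 - 2 * acW (h t) = - 2 * acW (h S) := by
      simp only [hF] at e1 e2
      rw [hgS] at e2
      linarith
    have e4 := acW_sub_le (hsol.bound (x₀ + t • a)) hq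
    have e5 : g t ^ 2 ≤ (2 * |h t - h S|) ^ 2 := by
      rw [mul_pow, sq_abs]
      nlinarith [sq_nonneg (h t - h S)]
    exact abs_le_of_sq_le_sq e5 (by positivity)
  set z : ℝ → ℝ := fun t => h (S - t) - h S with hzd
  have hz' : ∀ t, HasDerivAt z (- g (S - t)) t := fun t => by
    have h1 := (hh' (S - t)).comp t ((hasDerivAt_id t).const_sub S)
    exact (h1.sub_const (h S)).congr_deriv (by simp)
  have hzero := eq_zero_of_abs_deriv_le_mul_abs_self_of_eq_zero_right (f := z)
    (f' := fun t => - g (S - t)) (K := 2) (a := 0) (b := S)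
    (fun t _ => (hz' t).continuousAt.continuousWithinAt)
    (fun t _ => (hz' t).hasDerivWithinAt) (by simp [hzd]) fun t ht => by
      simp only [norm_neg, Real.norm_eq_abs, hzd]
      exact hgbd (S - t) ⟨by linarith [ht.2], by linarith [ht.1]⟩
  have hmid : HasDerivAt z 0 (S / 2) := by
    refine (hasDerivAt_const (S / 2) (0 : ℝ)).congr_of_eventuallyEq ?_
    filter_upwards [Ioo_mem_nhds (show (0 : ℝ) < S / 2 by linarith)
      (show S / 2 < S by linarith)] with t ht
    exact hzero t (Ioo_subset_Icc_self ht)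
  have := (hz' (S / 2)).unique hmid
  exact hbefore (S / 2) ⟨by linarith, by linarith⟩ (by
    rw [show S - S / 2 = S / 2 by ring] at this
    exact neg_eq_zero.1 this)

/-- A bounded function cannot have a derivative tending to a nonzero limit. -/
theorem deriv_lim_zero {φ φ' : ℝ → ℝ} {B l : ℝ} (hd : ∀ t, HasDerivAt φ (φ' t) t)
    (hb : ∀ t, |φ t| ≤ B) (hl : Tendsto φ' atTop (𝓝 l)) : l = 0 := by
  by_contra hne
  obtain ⟨T, hT⟩ := Filter.eventually_atTop.1
    (hl.eventually (Metric.ball_mem_nhds l (half_pos (abs_pos.2 hne))))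
  set s : ℝ := T + (4 * B + 1) / |l| with hs'
  have hB : 0 ≤ B := le_trans (abs_nonneg _) (hb 0)
  have hl0 : 0 < |l| := abs_pos.2 hne
  have hTs : T < s := by simp only [hs']; linarith [div_pos (by linarith : 0 < 4 * B + 1) hl0]
  obtain ⟨η, hη, hslope⟩ := exists_hasDerivAt_eq_slope φ φ' hTs
    (fun t _ => (hd t).continuousAt.continuousWithinAt) fun t _ => hd t
  have h1 := hT η hη.1.le
  rw [Real.dist_eq] at h1
  have h2 : |l| / 2 < |φ' η| := by
    have := abs_sub_abs_le_abs_sub l (φ' η)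
    rw [abs_sub_comm] at this
    linarith
  rw [hslope, abs_div, abs_of_pos (sub_pos.2 hTs), lt_div_iff₀ (sub_pos.2 hTs)] at h2
  have h3 : |φ s - φ T| ≤ 2 * B := (abs_sub _ _).trans (by linarith [hb s, hb T])
  have h4 : |l| / 2 * (s - T) = (4 * B + 1) / 2 := by
    simp only [hs']; field_simp; ring
  linarith

/-- Limit of a monotone bounded phase function at `+∞`. -/
theorem front_end {h g : ℝ → ℝ} {G k : ℝ} (hh : ∀ t, HasDerivAt h (g t) t)
    (hg : ∀ t, HasDerivAt g (acF (h t)) t) (hpos : ∀ t, 0 < g t) (hb : ∀ t, |h t| ≤ 1)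
    (hgb : ∀ t, |g t| ≤ G) (hint : ∀ t, g t ^ 2 / 2 - acW (h t) = k) :
    ∃ p, acF p = 0 ∧ acW p = -k ∧ ∀ t, h t < p := by
  have hsm : StrictMono h := strictMono_of_hasDerivAt_pos hh hpos
  have hbdd : BddAbove (range h) := ⟨1, by rintro _ ⟨t, rfl⟩; exact (abs_le.1 (hb t)).2⟩
  set p := ⨆ t, h t with hp
  have hlim : Tendsto h atTop (𝓝 p) := tendsto_atTop_ciSup hsm.monotone hbdd
  have hlt : ∀ t, h t < p := fun t =>
    lt_of_lt_of_le (hsm (lt_add_one t)) (le_ciSup hbdd (t + 1))
  have hf : acF p = 0 :=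
    deriv_lim_zero hg hgb ((continuous_acF.tendsto p).comp hlim)
  have hg2 : Tendsto (fun t => g t) atTop (𝓝 (Real.sqrt (2 * (acW p + k)))) := by
    have h1 : Tendsto (fun t => Real.sqrt (2 * (acW (h t) + k))) atTop
        (𝓝 (Real.sqrt (2 * (acW p + k)))) :=
      (Real.continuous_sqrt.tendsto _).comp
        ((((continuous_acW.tendsto p).comp hlim).add_const k).const_mul 2)
    refine h1.congr fun t => ?_
    have : 2 * (acW (h t) + k) = g t ^ 2 := by linarith [hint t]
    rw [this, Real.sqrt_sq (hpos t).le]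
  have hl0 := deriv_lim_zero hh hb hg2
  have hnn : 0 ≤ 2 * (acW p + k) := by
    have h1 : Tendsto (fun t => 2 * (acW (h t) + k)) atTop (𝓝 (2 * (acW p + k))) :=
      (((continuous_acW.tendsto p).comp hlim).add_const k).const_mul 2
    exact ge_of_tendsto h1 (Filter.Eventually.of_forall fun t => by nlinarith [hint t])
  rw [Real.sqrt_eq_zero hnn] at hl0
  exact ⟨p, hf, by linarith, hlt⟩

/-- Classification of the profile. -/
theorem front_or_constant {b : OrthonormalBasis ι ℝ E} {ub : E → ℝ} {M : ℝ} (hsol : IsSol b ub)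
    (hR : RegBd ub M) (hP : Parallel ub) (hN : NoDegen ub) :
    (∃ q, acF q = 0 ∧ ∀ x, ub x = q) ∨
    ∃ a : E, ‖a‖ = 1 ∧ ∀ x, edens b ub x ≤ M * fderiv ℝ ub x a := by
  have hu := hsol.smooth
  have hu1 : ContDiff ℝ 1 ub := hu.of_le (by norm_num)
  by_cases hall : ∀ x, fderiv ℝ ub x = 0
  · left
    have hconst : ∀ x, ub x = ub 0 := fun x =>
      is_const_of_fderiv_eq_zero (hu1.differentiable one_ne_zero) hall x 0
    refine ⟨ub 0, ?_, hconst⟩
    have hz : ∀ c d, hs ub 0 c d = 0 := by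
      intro c d
      have : fderiv ℝ ub = fun _ => 0 := funext hall
      simp [hs, this]
    rw [← hsol.eqn 0]
    simp [hz]
  right
  push Not at hall
  obtain ⟨x₀, hx₀⟩ := hall
  set v := (InnerProductSpace.toDual ℝ E).symm (fderiv ℝ ub x₀) with hv
  have hv' : ∀ c, fderiv ℝ ub x₀ c = ⟪v, c⟫ := fun c => by
    rw [hv, InnerProductSpace.toDual_symm_apply]
  have hvne : v ≠ 0 := fun h0 => hx₀ (ContinuousLinearMap.ext fun c => by
    rw [hv' c, h0, inner_zero_left]; rfl)
  set a := ‖v‖⁻¹ • v with ha'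
  have ha : ‖a‖ = 1 := norm_smul_inv_norm hvne
  have h0 : ∀ c, ⟪a, c⟫ = 0 → fderiv ℝ ub x₀ c = 0 := by
    intro c hc
    rw [ha', real_inner_smul_left] at hc
    rw [hv']
    exact (mul_eq_zero.1 hc).resolve_left (inv_ne_zero (norm_ne_zero_iff.2 hvne))
  have ha0 : 0 < fderiv ℝ ub x₀ a := by
    rw [hv', ha', real_inner_smul_right, real_inner_self_eq_norm_sq]
    have : 0 < ‖v‖ := norm_pos_iff.2 hvne
    positivity
  refine ⟨a, ha, ?_⟩
  set g : ℝ → ℝ := fun t => fderiv ℝ ub (x₀ + t • a) a with hg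
  set h : ℝ → ℝ := fun t => ub (x₀ + t • a) with hh
  have hgc : Continuous g :=
    continuous_iff_continuousAt.2 fun t => (hasDerivAt_line_dd hu x₀ a a t).continuousAt
  have hna : ‖-a‖ = 1 := by rw [norm_neg, ha]
  have hnz : ∀ t, g t ≠ 0 := by
    intro t
    rcases le_total 0 t with ht | ht
    · exact half_line hsol hP hN ha ha0.ne' h0 t ht
    · have := half_line hsol hP hN hna (by rw [map_neg]; exact neg_ne_zero.2 ha0.ne')
        (fun c hc => h0 c (by rw [inner_neg_left, neg_eq_zero] at hc; exact hc)) (-t)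
        (by linarith)
      simpa [hg] using this
  have hpos : ∀ t, 0 < g t := by
    intro t
    by_contra hc
    push Not at hc
    have h00 : 0 < g 0 := by simpa [hg] using ha0
    have := isPreconnected_univ.intermediate_value (mem_univ t) (mem_univ (0 : ℝ))
      hgc.continuousOn ⟨hc, h00.le⟩
    obtain ⟨r, -, hr⟩ := this
    exact hnz r hr
  have hperp : ∀ t : ℝ, ∀ c, ⟪a, c⟫ = 0 → fderiv ℝ ub (x₀ + t • a) c = 0 := by
    intro t c hc
    rcases le_total 0 t with ht | ht
    · exact perp_propagate hu hP (T := t + 1) (fun r _ => hnz r) h0 t ⟨ht, lt_add_one t⟩ c hc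
    · have := perp_propagate hu hP (a := a) (d := -a) (q := x₀) (T := -t + 1)
        (fun r _ => by simpa [hg] using hnz (-r)) h0 (-t) ⟨by linarith, lt_add_one _⟩ c hc
      simpa using this
  have hh' : ∀ t, HasDerivAt h (g t) t := fun t => hasDerivAt_line_val hu x₀ a t
  have hg' : ∀ t, HasDerivAt g (acF (h t)) t := fun t => by
    have e := hess_aa hsol hP ha (hnz t) (hperp t)
    exact e ▸ hasDerivAt_line_dd hu x₀ a a t
  set k := g 0 ^ 2 / 2 - acW (h 0) with hk
  have hint : ∀ t, g t ^ 2 / 2 - acW (h t) = k := by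
    intro t
    have hd : ∀ r, HasDerivAt (fun r => g r ^ 2 / 2 - acW (h r)) 0 r := fun r => by
      refine ((((hg' r).pow 2).div_const 2).sub
        ((hasDerivAt_acW (h r)).comp r (hh' r))).congr_deriv ?_
      simp only [Nat.cast_ofNat, Nat.add_one_sub_one, pow_one]
      ring
    exact is_const_of_deriv_eq_zero (fun r => (hd r).differentiableAt) (fun r => (hd r).deriv) t 0
  have hgb : ∀ t, |g t| ≤ M := fun t => by simpa [ha] using hR.first (x₀ + t • a) a
  have hhb : ∀ t, |h t| ≤ 1 := fun t => hsol.bound _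
  obtain ⟨p, hp, hWp, hltp⟩ := front_end hh' hg' hpos hhb hgb hint
  obtain ⟨q, hq, hWq, hltq⟩ := front_end (h := fun t => - h (-t)) (g := fun t => g (-t)) (G := M)
    (k := k)
    (fun t => ((hh' (-t)).comp t (hasDerivAt_neg t)).neg.congr_deriv (by simp))
    (fun t => ((hg' (-t)).comp t (hasDerivAt_neg t)).congr_deriv (by simp [acF]; ring))
    (fun t => hpos _) (fun t => by rw [abs_neg]; exact hhb _) (fun t => hgb _)
    (fun t => by simpa [acW] using hint (-t))
  have hk0 : k = 0 := by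
    have hlt : -q < p := by
      have h1 := hltp 0
      have h2 := hltq 0
      simp only [neg_zero] at h2
      linarith
    have hrp : p = 0 ∨ p = 1 ∨ p = -1 := by
      have : p * ((p - 1) * (p + 1)) = 0 := by unfold acF at hp; linarith
      rcases mul_eq_zero.1 this with h1 | h1
      · exact Or.inl h1
      · rcases mul_eq_zero.1 h1 with h1 | h1
        · exact Or.inr (Or.inl (by linarith))
        · exact Or.inr (Or.inr (by linarith))
    have hrq : q = 0 ∨ q = 1 ∨ q = -1 := by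
      have : q * ((q - 1) * (q + 1)) = 0 := by unfold acF at hq; linarith
      rcases mul_eq_zero.1 this with h1 | h1
      · exact Or.inl h1
      · rcases mul_eq_zero.1 h1 with h1 | h1
        · exact Or.inr (Or.inl (by linarith))
        · exact Or.inr (Or.inr (by linarith))
    rcases hrp with rfl | rfl | rfl <;> rcases hrq with rfl | rfl | rfl <;>
      simp only [acW] at hWp hWq <;> linarith
  intro x
  set s := ⟪a, x - x₀⟫ with hs'
  set y := x - x₀ - s • a with hy'
  have hy : ⟪a, y⟫ = 0 := by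
    rw [hy', inner_sub_right, inner_smul_right, inner_self_one ha, ← hs']; ring
  have hx : x = x₀ + s • a + y := by simp only [hy']; abel
  obtain ⟨hD, hv1⟩ := plane hu hP ha (hnz s) (hperp s) hy
  rw [hx]
  have hgs : fderiv ℝ ub (x₀ + s • a + y) a = g s := by rw [hD a, inner_self_one ha, one_mul]
  have hgsq : gsq b ub (x₀ + s • a + y) = g s ^ 2 := by
    simp only [gsq, hD, mul_pow, ← Finset.sum_mul]
    have := b.sum_inner_mul_inner a a
    simp only [real_inner_comm a] at this
    rw [inner_self_one ha] at this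
    simp only [sq]
    rw [this]
    ring
  rw [hgs, edens, hgsq, hv1]
  have h1 := hint s
  rw [hk0] at h1
  have h2 := le_of_abs_le (hgb s)
  have h3 := hpos s
  simp only [hh] at h1
  nlinarith

end Vale.Agent.P134P
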