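import Vale.Agent.P134P.Specs
import Vale.Agent.P134P.Weak
import Vale.Agent.P134P.Ode

/-! # P134: the limit profile is a front or a constant `±1` -/

set_option linter.unusedSectionVars false

open scoped BigOperators RealInnerProductSpace
open Filter Topology MeasureTheory

namespace Vale.Agent.P134P

variable {E : Type*} [NormedAddCommGroup E] [InnerProductSpace ℝ E] [FiniteDimensional ℝ E]
  [MeasurableSpace E] [BorelSpace E]
  {ι : Type*} [Fintype ι] [DecidableEq ι]

theorem rad_card (b : OrthonormalBasis ι ℝ E) (p : E) (S : Finset ι) {L R : ℝ} (hL : 0 ≤ L)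
    (hR : 0 ≤ R) :
    (volume : Measure E).real (box b p (rad S L R))
      = 2 ^ Fintype.card ι * L ^ S.card * R ^ Sᶜ.card := by
  rw [volume_box b p (r := rad S L R) (fun i => by unfold rad; split_ifs <;> assumption)]
  rw [Finset.prod_mul_distrib, Finset.prod_const, Finset.card_univ]
  have h1 : ∏ i, rad S L R i = L ^ S.card * R ^ Sᶜ.card := by
    unfold rad
    rw [← Finset.prod_mul_prod_compl S, Finset.prod_congr rfl fun i hi => if_pos hi,
      Finset.prod_congr (s₁ := Sᶜ) rfl fun i hi => if_neg (Finset.mem_compl.1 hi)]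
    simp
  rw [h1]; ring

theorem boxBound_one (b : OrthonormalBasis ι ℝ E) (p : E) {S : Finset ι} (hS : Sᶜ.card = 2) :
    BoxBound b p S (fun _ => (1 : ℝ)) (2 ^ Fintype.card ι) := by
  intro L R hR hRL
  rw [setIntegral_const, smul_eq_mul, mul_one, rad_card b p S (by linarith) (by linarith), hS]

/-- Cutoff in all directions at scale `L`. -/
theorem cut_all (b : OrthonormalBasis ι ℝ E) (p : E) {L : ℝ} (hL : 0 < L) :
    HasCompactSupport (pcut b p Finset.univ L) ∧
    (∀ x, pcut b p Finset.univ L x ^ 2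
      ≤ (box b p (fun _ => 2 * L)).indicator (1 : E → ℝ) x) ∧
    (∀ x, gsq b (pcut b p Finset.univ L) x ≤ Fintype.card ι * (chiD / L) ^ 2 *
      (box b p (fun _ => 2 * L)).indicator (1 : E → ℝ) x) ∧
    (∀ x ∈ box b p (fun _ => L), pcut b p Finset.univ L x = 1) := by
  have hsupp : ∀ x, pcut b p Finset.univ L x ≠ 0 → x ∈ box b p (fun _ => 2 * L) :=
    fun x h i => pcut_ne_zero b p _ hL h i (Finset.mem_univ i)
  refine ⟨HasCompactSupport.intro (isCompact_box b p (fun _ => 2 * L)) fun x hx => ?_,
    fun x => ?_, fun x => ?_,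
    fun x hx => pcut_one b p _ hL fun i _ => hx i⟩
  · by_contra h; exact hx (hsupp x h)
  · by_cases hx : x ∈ box b p (fun _ => 2 * L)
    · simp only [Set.indicator_of_mem hx, Pi.one_apply]
      exact pow_le_one₀ (pcut_nonneg _ _ _ _ _) (pcut_le_one _ _ _ _ _)
    · have : pcut b p Finset.univ L x = 0 := by
        by_contra h; exact hx (hsupp x h)
      simp [this, hx]
  · have hj : ∀ j, fderiv ℝ (pcut b p Finset.univ L) x (b j) ^ 2
        ≤ (chiD / L) ^ 2 * (box b p (fun _ => 2 * L)).indicator (1 : E → ℝ) x := by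
      intro j
      obtain ⟨hb, hs'⟩ := abs_fderiv_pcut b p Finset.univ hL x j
      by_cases h0 : fderiv ℝ (pcut b p Finset.univ L) x (b j) = 0
      · simp only [h0, ne_eq, OfNat.ofNat_ne_zero, not_false_eq_true, zero_pow]
        exact mul_nonneg (sq_nonneg _) (Set.indicator_nonneg (fun _ _ => zero_le_one) x)
      · have hx : x ∈ box b p (fun _ => 2 * L) := fun i => (hs' h0).1 i (Finset.mem_univ i)
        simp only [Set.indicator_of_mem hx, Pi.one_apply, mul_one]
        rw [← sq_abs]
        exact pow_le_pow_left₀ (abs_nonneg _) hb 2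
    refine (Finset.sum_le_sum fun j _ => hj j).trans (le_of_eq ?_)
    simp [Finset.card_univ]
    ring

/-- Uniform convergence on compact sets from pointwise convergence and a Lipschitz bound. -/
theorem uniform_of_lipschitz {F : ℕ → E → ℝ} {f : E → ℝ} {M : ℝ} (hM : 0 ≤ M)
    (hF : ∀ n x y, |F n x - F n y| ≤ M * ‖x - y‖) (hf : ∀ x y, |f x - f y| ≤ M * ‖x - y‖)
    (hlim : ∀ x, Tendsto (fun n => F n x) atTop (𝓝 (f x))) {K : Set E} (hK : IsCompact K)
    {η : ℝ} (hη : 0 < η) : ∀ᶠ n in atTop, ∀ x ∈ K, |F n x - f x| ≤ η := by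
  set d := η / (3 * (M + 1)) with hd
  have hd0 : 0 < d := by positivity
  obtain ⟨t, -, htf, htc⟩ := finite_cover_balls_of_compact hK hd0
  have h1 : ∀ᶠ n in atTop, ∀ y ∈ t, |F n y - f y| < η / 3 :=
    (htf.eventually_all).2 fun y _ => by
      have := (hlim y).eventually (Metric.ball_mem_nhds (f y) (by positivity : 0 < η / 3))
      filter_upwards [this] with n hn
      rwa [Real.dist_eq] at hn
  filter_upwards [h1] with n hn x hx
  obtain ⟨y, hy, hxy⟩ := Set.mem_iUnion₂.1 (htc hx)
  rw [Metric.mem_ball, dist_eq_norm] at hxy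
  have e1 := hF n x y
  have e2 := hf x y
  have e3 := (hn y hy).le
  have e4 : M * ‖x - y‖ ≤ η / 3 := by
    calc M * ‖x - y‖ ≤ (M + 1) * d :=
          mul_le_mul (by linarith) hxy.le (norm_nonneg _) (by linarith)
      _ = η / 3 := by simp only [hd]; field_simp
  have := abs_le.1 e1
  have := abs_le.1 e2
  have := abs_le.1 e3
  rw [abs_le]
  constructor <;> linarith

theorem RegBd.lipD {u : E → ℝ} {M : ℝ} (hu : ContDiff ℝ 2 u) (hR : RegBd u M) (a x y : E) :
    |fderiv ℝ u x a - fderiv ℝ u y a| ≤ M * ‖a‖ * ‖x - y‖ := by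
  have h := Convex.norm_image_sub_le_of_norm_fderiv_le (𝕜 := ℝ) (f := dd u a) (C := M * ‖a‖)
    (fun z _ => ((contDiff_dd hu a).differentiable one_ne_zero) z)
    (fun z _ => by
      refine ContinuousLinearMap.opNorm_le_bound _ (mul_nonneg hR.nonneg (norm_nonneg _)) fun c => ?_
      rw [fderiv_dd hu, Real.norm_eq_abs]
      calc |hs u z c a| ≤ M * ‖c‖ * ‖a‖ := hR.second z c a
        _ = M * ‖a‖ * ‖c‖ := by ring)
    convex_univ (Set.mem_univ y) (Set.mem_univ x)
  simpa [dd, Real.norm_eq_abs] using h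

/-- Sum over all directions of the squared Picone remainders. -/
noncomputable def gtot (b : OrthonormalBasis ι ℝ E) (i₀ : ι) (u : E → ℝ) (x : E) : ℝ :=
  ∑ j, picSq b (dd u (b i₀)) (dd u (b j)) x

theorem fderiv_periodic_shift {f : E → ℝ} {t : E} (h : ∀ x, f (x + t) = f x) (x : E) :
    fderiv ℝ f (x + t) = fderiv ℝ f x := by
  rw [← fderiv_shift (G := f) t x]
  simp only [h]

namespace Setup

variable {b : OrthonormalBasis ι ℝ E} {S : Finset ι} {i₀ : ι} {τ : Fin S.card → E} {u : E → ℝ}
  {M : ℝ} {ub : E → ℝ}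

theorem cont_v (h : Setup b S i₀ τ u M ub) : ContDiff ℝ 1 (dd u (b i₀)) :=
  contDiff_dd h.sol.smooth _

theorem continuous_gtot (h : Setup b S i₀ τ u M ub) : Continuous (gtot b i₀ u) :=
  continuous_finsetSum _ fun j _ =>
    continuous_picSq b h.cont_v (contDiff_dd h.sol.smooth (b j)) h.mono

theorem gtot_nonneg (x : E) : 0 ≤ gtot b i₀ u x :=
  Finset.sum_nonneg fun _ _ => Finset.sum_nonneg fun _ _ => sq_nonneg _

theorem gtot_periodic (h : Setup b S i₀ τ u M ub) (j : Fin S.card) (x : E) :
    gtot b i₀ u (x + τ j) = gtot b i₀ u x := by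
  have h1 : ∀ a, ∀ y, dd u a (y + τ j) = dd u a y := fun a y => by
    simp only [dd, fderiv_periodic_shift (h.periodic j) y]
  simp only [gtot, picSq, pic, h1, fderiv_periodic_shift (h1 _) x]

theorem gtot_ineq (h : Setup b S i₀ τ u M ub) (ζ : E → ℝ) (hζ : ContDiff ℝ 1 ζ)
    (hc : HasCompactSupport ζ) :
    ∫ x, ζ x ^ 2 * gtot b i₀ u x ≤ 4 * Fintype.card ι * M ^ 2 * ∫ x, gsq b ζ x * 1 := by
  have hint : ∀ j, Integrable (fun x => ζ x ^ 2 * picSq b (dd u (b i₀)) (dd u (b j)) x) := fun j =>
    ((hζ.continuous.pow 2).mul (continuous_picSq b h.cont_v (contDiff_dd h.sol.smooth (b j))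
      h.mono)).integrable_of_hasCompactSupport (hasCompactSupport_sq hc).mul_right
  have hg : Integrable (gsq b ζ) :=
    (continuous_gsq b hζ).integrable_of_hasCompactSupport (hasCompactSupport_gsq b hc)
  simp only [gtot, Finset.mul_sum, mul_one]
  rw [integral_finsetSum _ fun j _ => hint j]
  calc ∑ j, ∫ x, ζ x ^ 2 * picSq b (dd u (b i₀)) (dd u (b j)) x
      ≤ ∑ _j : ι, 4 * (M ^ 2 * ∫ x, gsq b ζ x) := by
        refine Finset.sum_le_sum fun j _ => ?_
        refine (picone b h.cont_v (contDiff_dd h.sol.smooth (b j)) hζ hc h.mono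
          (weak_dd h.sol _) (weak_dd h.sol _)).trans ?_
        refine mul_le_mul_of_nonneg_left ?_ (by norm_num)
        rw [← integral_const_mul]
        refine integral_mono (integrable_mul_cs ((contDiff_dd h.sol.smooth (b j)).continuous.pow 2)
          (continuous_gsq b hζ) (hasCompactSupport_gsq b hc)) (hg.const_mul _) fun x => ?_
        refine mul_le_mul_of_nonneg_right ?_ (gsq_nonneg b ζ x)
        rw [← sq_abs]
        exact pow_le_pow_left₀ (abs_nonneg _) (by simpa [dd] using h.reg.first x (b j)) 2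
    _ = 4 * Fintype.card ι * M ^ 2 * ∫ x, gsq b ζ x := by simp [Finset.card_univ]; ring

/-- Along a suitable sequence of translations the Picone remainders vanish in `L²` on balls. -/
theorem exists_seq (h : Setup b S i₀ τ u M ub) :
    ∃ r > 0, r ≤ 1 ∧ ∀ p : E, ∃ T : ℕ → ℝ, Tendsto T atTop atTop ∧
      ∀ n : ℕ, ∫ x in Metric.closedBall p r, gtot b i₀ u (x + T n • b i₀) < 1 / (n + 1) := by
  set S' := insert i₀ S with hS'
  have hcard : S'.card = S.card + 1 := Finset.card_insert_of_notMem h.free
  have hc2 : S'ᶜ.card = 2 := by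
    rw [hS', Finset.compl_insert, Finset.card_erase_of_mem (Finset.mem_compl.2 h.free), h.three]
  set τ' : Fin (S.card + 1) → E := Fin.cons (b i₀) τ with hτ'
  have hli : LinearIndependent ℝ τ' := by
    rw [hτ', linearIndependent_finCons]
    refine ⟨h.indep, fun hmem => ?_⟩
    have hker : ∀ w ∈ Submodule.span ℝ (Set.range τ), ⟪b i₀, w⟫ = 0 := by
      intro w hw
      induction hw using Submodule.span_induction with
      | mem w hw => obtain ⟨j, rfl⟩ := hw; exact h.perp j i₀ h.free
      | zero => simp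
      | add x y _ _ hx hy => rw [inner_add_right, hx, hy, add_zero]
      | smul c x _ hx => rw [inner_smul_right, hx, mul_zero]
    have := hker _ hmem
    simp at this
  have hperp : ∀ j, ∀ i ∉ S', ⟪b i, τ' j⟫ = 0 := by
    intro j i hi
    rw [hS', Finset.mem_insert, not_or] at hi
    refine Fin.cases ?_ (fun k => ?_) j
    · simp [hτ', b.inner_eq_ite, hi.1]
    · simpa [hτ'] using h.perp k i hi.2
  obtain ⟨r₀, hr₀, H⟩ := exists_small_translate b S' hcard τ' hli hperp
  refine ⟨min r₀ 1, lt_min hr₀ one_pos, min_le_right _ _, fun p => ?_⟩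
  have key : ∀ n : ℕ, ∃ T : ℝ, (n : ℝ) ≤ T ∧
      ∫ x in Metric.closedBall p (min r₀ 1), gtot b i₀ u (x + T • b i₀) < 1 / (n + 1) := by
    intro n
    obtain ⟨k, hk⟩ := H (gtot b i₀ u) (fun _ => 1) (2 ^ Fintype.card ι)
      (4 * Fintype.card ι * M ^ 2) (p + (n : ℝ) • b i₀) h.continuous_gtot gtot_nonneg
      continuous_const (fun _ => zero_le_one) (by positivity) (by positivity)
      (boxBound_one b _ hc2) h.gtot_ineq (min r₀ 1) (lt_min hr₀ one_pos) (min_le_left _ _)
      (1 / (n + 1)) (by positivity)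
    refine ⟨(n : ℝ) + k 0, le_add_of_nonneg_right (Nat.cast_nonneg _), ?_⟩
    have hc : p + (n : ℝ) • b i₀ + ∑ j, (k j : ℝ) • τ' j
        = p + (((n : ℝ) + k 0) • b i₀ + ∑ j, (k (Fin.succ j) : ℝ) • τ j) := by
      rw [Fin.sum_univ_succ]
      simp only [hτ', Fin.cons_zero, Fin.cons_succ, add_smul]
      abel
    rw [hc, setIntegral_ball_shift] at hk
    simp only [← add_assoc, shift_periodic h.gtot_periodic (fun j => k (Fin.succ j))] at hk
    exact hk
  choose T hT hT' using key
  exact ⟨T, tendsto_atTop_mono hT tendsto_natCast_atTop_atTop, hT'⟩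

theorem continuous_shift {G : E → ℝ} (hG : Continuous G) (a : E) :
    Continuous (fun x => G (x + a)) := hG.comp (by fun_prop)

theorem parallel (h : Setup b S i₀ τ u M ub) : Parallel ub := by
  obtain ⟨r, hr, -, hseq⟩ := h.exists_seq
  have hM := h.reg.nonneg
  have hbasis : ∀ x, ∀ i j l, fderiv ℝ ub x (b i) * hs ub x (b l) (b j)
      = fderiv ℝ ub x (b j) * hs ub x (b l) (b i) := by
    intro p i j l
    set q : E → ℝ := fun x =>
      (fderiv ℝ ub x (b i) * hs ub x (b l) (b j) - fderiv ℝ ub x (b j) * hs ub x (b l) (b i)) ^ 2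
      with hq
    have hu1 : ContDiff ℝ 1 ub := h.profileSol.smooth.of_le (by norm_num)
    have hqc : Continuous q :=
      (((continuous_fderiv_apply' hu1 _).mul (continuous_hs h.profileSol.smooth _ _)).sub
        ((continuous_fderiv_apply' hu1 _).mul (continuous_hs h.profileSol.smooth _ _))).pow 2
    obtain ⟨T, hT, hTn⟩ := hseq p
    set qn : ℕ → E → ℝ := fun n x =>
      (fderiv ℝ u (x + T n • b i₀) (b i) * hs u (x + T n • b i₀) (b l) (b j)
        - fderiv ℝ u (x + T n • b i₀) (b j) * hs u (x + T n • b i₀) (b l) (b i)) ^ 2 with hqn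
    have hsu1 : ContDiff ℝ 1 u := h.sol.smooth.of_le (by norm_num)
    have hqnc : ∀ n, Continuous (qn n) := fun n =>
      ((((continuous_fderiv_apply' hsu1 _).mul (continuous_hs h.sol.smooth _ _)).sub
        ((continuous_fderiv_apply' hsu1 _).mul (continuous_hs h.sol.smooth _ _))).pow 2).comp
        (by fun_prop)
    have hbd : ∀ y i, |fderiv ℝ u y (b i)| ≤ M := fun y i => by
      simpa using h.reg.first y (b i)
    have hle : ∀ n x, qn n x ≤ 4 * M ^ 2 * gtot b i₀ u (x + T n • b i₀) := by
      intro n x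
      set y := x + T n • b i₀
      have hp : ∀ j, pic b (dd u (b i₀)) (dd u (b j)) l y ^ 2 ≤ gtot b i₀ u y := fun j =>
        le_trans (Finset.single_le_sum (f := fun l => pic b (dd u (b i₀)) (dd u (b j)) l y ^ 2)
          (fun _ _ => sq_nonneg _) (Finset.mem_univ l))
          (Finset.single_le_sum (f := fun j => picSq b (dd u (b i₀)) (dd u (b j)) y)
            (fun _ _ => Finset.sum_nonneg fun _ _ => sq_nonneg _) (Finset.mem_univ j))
      have e : fderiv ℝ u y (b i) * hs u y (b l) (b j) - fderiv ℝ u y (b j) * hs u y (b l) (b i)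
          = fderiv ℝ u y (b i) * pic b (dd u (b i₀)) (dd u (b j)) l y
            - fderiv ℝ u y (b j) * pic b (dd u (b i₀)) (dd u (b i)) l y := by
        simp only [pic, fderiv_dd h.sol.smooth, dd]
        ring
      show (fderiv ℝ u y (b i) * hs u y (b l) (b j)
        - fderiv ℝ u y (b j) * hs u y (b l) (b i)) ^ 2 ≤ _
      rw [e]
      have k1 : (fderiv ℝ u y (b i)) ^ 2 ≤ M ^ 2 := by
        rw [← sq_abs]; exact pow_le_pow_left₀ (abs_nonneg _) (hbd y i) 2
      have k2 : (fderiv ℝ u y (b j)) ^ 2 ≤ M ^ 2 := by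
        rw [← sq_abs]; exact pow_le_pow_left₀ (abs_nonneg _) (hbd y j) 2
      have k3 := mul_le_mul k1 (hp j) (sq_nonneg _) (sq_nonneg M)
      have k4 := mul_le_mul k2 (hp i) (sq_nonneg _) (sq_nonneg M)
      nlinarith [sq_nonneg (fderiv ℝ u y (b i) * pic b (dd u (b i₀)) (dd u (b j)) l y
        + fderiv ℝ u y (b j) * pic b (dd u (b i₀)) (dd u (b i)) l y)]
    have hlim : Tendsto (fun n => ∫ x in Metric.closedBall p r, qn n x) atTop
        (𝓝 (∫ x in Metric.closedBall p r, q x)) := by
      refine tendsto_integral_of_dominated_convergence (fun _ => 4 * M ^ 4)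
        (fun n => (hqnc n).aestronglyMeasurable)
        (integrableOn_const measure_closedBall_lt_top.ne)
        (fun n => Filter.Eventually.of_forall fun x => ?_)
        (Filter.Eventually.of_forall fun x => ?_)
      · have a1 := hbd (x + T n • b i₀) i
        have a2 := hbd (x + T n • b i₀) j
        have a3 : |hs u (x + T n • b i₀) (b l) (b j)| ≤ M := by
          simpa using h.reg.second (x + T n • b i₀) (b l) (b j)
        have a4 : |hs u (x + T n • b i₀) (b l) (b i)| ≤ M := by
          simpa using h.reg.second (x + T n • b i₀) (b l) (b i)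
        rw [Real.norm_eq_abs, abs_of_nonneg (sq_nonneg _), hqn]
        have h1 : |fderiv ℝ u (x + T n • b i₀) (b i) * hs u (x + T n • b i₀) (b l) (b j)
            - fderiv ℝ u (x + T n • b i₀) (b j) * hs u (x + T n • b i₀) (b l) (b i)|
            ≤ 2 * M ^ 2 := by
          refine (abs_sub _ _).trans ?_
          rw [abs_mul, abs_mul]
          have := mul_le_mul a1 a3 (abs_nonneg _) hM
          have := mul_le_mul a2 a4 (abs_nonneg _) hM
          linarith
        simp only
        rw [← sq_abs]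
        refine (pow_le_pow_left₀ (abs_nonneg _) h1 2).trans (le_of_eq ?_)
        ring
      · exact ((((h.profile.first x (b i)).comp hT).mul ((h.profile.second x (b l) (b j)).comp hT)).sub
          (((h.profile.first x (b j)).comp hT).mul ((h.profile.second x (b l) (b i)).comp hT))).pow 2
    have hzero : ∫ x in Metric.closedBall p r, q x ≤ 0 := by
      have h0 : Tendsto (fun n : ℕ => 4 * M ^ 2 * (1 / ((n : ℝ) + 1))) atTop (𝓝 0) := by
        simpa using (tendsto_one_div_add_atTop_nhds_zero_nat (𝕜 := ℝ)).const_mul (4 * M ^ 2)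
      refine le_of_tendsto_of_tendsto' hlim h0 fun n => ?_
      have hio : IntegrableOn (fun x => gtot b i₀ u (x + T n • b i₀)) (Metric.closedBall p r) :=
        (continuous_shift h.continuous_gtot _).continuousOn.integrableOn_compact
          (isCompact_closedBall p r)
      calc ∫ x in Metric.closedBall p r, qn n x
          ≤ ∫ x in Metric.closedBall p r, 4 * M ^ 2 * gtot b i₀ u (x + T n • b i₀) :=
            setIntegral_mono_on ((hqnc n).continuousOn.integrableOn_compact
              (isCompact_closedBall p r)) (hio.const_mul _) measurableSet_closedBall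
              fun x _ => hle n x
        _ ≤ _ := by
            rw [integral_const_mul]
            exact mul_le_mul_of_nonneg_left (hTn n).le (by positivity)
    have := eq_zero_of_small hqc (fun x => sq_nonneg _) hr (fun ε hε => hzero.trans hε.le)
      (p := p)
    exact sub_eq_zero.1 (pow_eq_zero_iff two_ne_zero |>.1 this)
  intro x
  have expand : ∀ w : E, w = ∑ i, ⟪b i, w⟫ • b i := fun w => (b.sum_repr' w).symm
  have s1 : ∀ i j d, fderiv ℝ ub x (b i) * hs ub x d (b j)
      = fderiv ℝ ub x (b j) * hs ub x d (b i) := by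
    intro i j d
    rw [expand d]
    simp only [hs, map_sum, map_smul, FunLike.coe_sum, FunLike.coe_smul, Finset.sum_apply,
      Pi.smul_apply, smul_eq_mul, Finset.mul_sum]
    refine Finset.sum_congr rfl fun l _ => ?_
    have := hbasis x i j l
    simp only [hs] at this
    linear_combination ⟪b l, d⟫ * this
  have s2 : ∀ i c d, fderiv ℝ ub x (b i) * hs ub x d c
      = fderiv ℝ ub x c * hs ub x d (b i) := by
    intro i c d
    rw [expand c]
    simp only [hs, map_sum, map_smul, smul_eq_mul, Finset.mul_sum, Finset.sum_mul]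
    refine Finset.sum_congr rfl fun j _ => ?_
    have := s1 i j d
    simp only [hs] at this
    linear_combination ⟪b j, c⟫ * this
  intro a c d
  rw [expand a]
  simp only [hs, map_sum, map_smul, smul_eq_mul, Finset.mul_sum, Finset.sum_mul]
  refine Finset.sum_congr rfl fun i _ => ?_
  have := s2 i c d
  simp only [hs] at this
  linear_combination ⟪b i, a⟫ * this

theorem hs_sq_le (h : Setup b S i₀ τ u M ub) {a : E} (ha : ‖a‖ = 1) (y : E) :
    hs u y a a ^ 2 ≤ 2 * gtot b i₀ u y
      + 2 * fderiv ℝ u y a ^ 2 * (gsq b (dd u (b i₀)) y / dd u (b i₀) y ^ 2) := by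
  set v := dd u (b i₀) with hv
  have hsum : ∑ i, ⟪b i, a⟫ ^ 2 = 1 := by
    have := b.sum_inner_mul_inner a a
    rw [inner_self_one ha] at this
    rw [← this]
    exact Finset.sum_congr rfl fun i _ => by rw [real_inner_comm a (b i)]; ring
  have expand : a = ∑ i, ⟪b i, a⟫ • b i := (b.sum_repr' a).symm
  set hh : ι → ℝ := fun l => hs u y (b l) a with hhd
  have h1 : hs u y a a ^ 2 ≤ ∑ l, hh l ^ 2 := by
    have e : hs u y a a = ∑ l, ⟪b l, a⟫ * hh l := by
      conv_lhs => rw [hs, show fderiv ℝ (fderiv ℝ u) y a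
        = fderiv ℝ (fderiv ℝ u) y (∑ i, ⟪b i, a⟫ • b i) by rw [← expand]]
      simp [hhd, hs, map_sum, map_smul]
    rw [e]
    refine (Finset.sum_mul_sq_le_sq_mul_sq _ _ _).trans ?_
    rw [hsum, one_mul]
  set P : ι → ℝ := fun l => hh l - fderiv ℝ u y a / v y * fderiv ℝ v y (b l) with hP
  have h2 : ∀ l, P l ^ 2 ≤ ∑ j, pic b v (dd u (b j)) l y ^ 2 := by
    intro l
    have e : P l = ∑ j, ⟪b j, a⟫ * pic b v (dd u (b j)) l y := by
      have ea : fderiv ℝ u y a = ∑ j, ⟪b j, a⟫ * fderiv ℝ u y (b j) := by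
        conv_lhs => rw [expand]
        simp [map_sum, map_smul]
      have eh : hh l = ∑ j, ⟪b j, a⟫ * hs u y (b l) (b j) := by
        simp only [hhd, hs]
        conv_lhs => rw [expand]
        simp [map_sum, map_smul]
      simp only [hP, pic, fderiv_dd h.sol.smooth, dd, ea, eh, Finset.sum_div, Finset.sum_mul,
        ← Finset.sum_sub_distrib]
      refine Finset.sum_congr rfl fun j _ => ?_
      ring
    rw [e]
    refine (Finset.sum_mul_sq_le_sq_mul_sq _ _ _).trans ?_
    rw [hsum, one_mul]
  have h3 : ∑ l, P l ^ 2 ≤ gtot b i₀ u y := by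
    refine (Finset.sum_le_sum fun l _ => h2 l).trans (le_of_eq ?_)
    rw [Finset.sum_comm]
    rfl
  refine h1.trans ?_
  have h4 : ∑ l, hh l ^ 2 ≤ ∑ l, (2 * P l ^ 2
      + 2 * fderiv ℝ u y a ^ 2 * ((fderiv ℝ v y (b l)) ^ 2 / v y ^ 2)) := by
    refine Finset.sum_le_sum fun l _ => ?_
    have e : 2 * fderiv ℝ u y a ^ 2 * ((fderiv ℝ v y (b l)) ^ 2 / v y ^ 2)
        = 2 * (fderiv ℝ u y a / v y * fderiv ℝ v y (b l)) ^ 2 := by ring
    rw [e]
    simp only [hP]
    nlinarith [sq_nonneg (hh l - 2 * (fderiv ℝ u y a / v y * fderiv ℝ v y (b l)))]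
  refine h4.trans ?_
  rw [Finset.sum_add_distrib, ← Finset.mul_sum, ← Finset.mul_sum, ← Finset.sum_div]
  simp only [gsq] at h3 ⊢
  linarith

theorem log_bound (h : Setup b S i₀ τ u M ub) :
    ∃ C, 0 ≤ C ∧ ∀ c r, r ≤ 1 → ∫ x in Metric.closedBall c r,
      gsq b (dd u (b i₀)) x / dd u (b i₀) x ^ 2 ≤ C := by
  set V : ℝ := ∏ _i : ι, (2 * (2 * 1) : ℝ) with hV
  refine ⟨2 * (2 * V) + 4 * (Fintype.card ι * (chiD / 1) ^ 2 * V), by positivity, fun c r hr => ?_⟩
  obtain ⟨hcs, hsq, hgr, hone⟩ := cut_all b c one_pos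
  set ζ := pcut b c Finset.univ 1 with hζd
  have hζ : ContDiff ℝ 1 ζ := contDiff_pcut b c _ 1
  have hacc : Continuous (fun x => acC (u x)) := continuous_acC.comp h.sol.smooth.continuous
  have hlog := (log_cacc b hacc h.cont_v hζ hcs h.mono (weak_dd h.sol _)).2
  have hgl : Continuous (fun x => gsq b (dd u (b i₀)) x / dd u (b i₀) x ^ 2) :=
    (continuous_gsq b h.cont_v).div (h.cont_v.continuous.pow 2)
      fun x => pow_ne_zero 2 (h.mono x).ne'
  have hnn : ∀ x, 0 ≤ gsq b (dd u (b i₀)) x / dd u (b i₀) x ^ 2 := fun x =>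
    div_nonneg (gsq_nonneg _ _ _) (sq_nonneg _)
  have hint : Integrable (fun x => ζ x ^ 2 * (gsq b (dd u (b i₀)) x / dd u (b i₀) x ^ 2)) :=
    ((hζ.continuous.pow 2).mul hgl).integrable_of_hasCompactSupport
      (hasCompactSupport_sq hcs).mul_right
  have hleft : ∫ x in Metric.closedBall c r, gsq b (dd u (b i₀)) x / dd u (b i₀) x ^ 2
      ≤ ∫ x, ζ x ^ 2 * (gsq b (dd u (b i₀)) x / dd u (b i₀) x ^ 2) := by
    refine le_trans (le_of_eq (setIntegral_congr_fun measurableSet_closedBall fun x hx => ?_))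
      (setIntegral_le_integral hint (Filter.Eventually.of_forall fun x =>
        mul_nonneg (sq_nonneg _) (hnn x)))
    have hb : x ∈ box b c (fun _ => 1) := fun i => by
      rw [Metric.mem_closedBall, dist_eq_norm] at hx
      exact (abs_co_le b c x i).trans (hx.trans hr)
    simp only [hone x hb, one_pow, one_mul]
  have hind : Integrable ((box b c (fun _ => 2 * (1 : ℝ))).indicator (1 : E → ℝ)) :=
    (integrableOn_const (isCompact_box b c _).measure_lt_top.ne).integrable_indicator
      (isClosed_box b c _).measurableSet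
  have hvol : ∫ x, (box b c (fun _ => 2 * (1 : ℝ))).indicator (1 : E → ℝ) x = V := by
    rw [integral_indicator_one (isClosed_box b c _).measurableSet,
      volume_box b c (fun _ => by norm_num)]
  have h1 : ∫ x, |acC (u x)| * ζ x ^ 2 ≤ 2 * V := by
    rw [← hvol, ← integral_const_mul]
    refine integral_mono (integrable_mul_cs hacc.abs (hζ.continuous.pow 2)
      (hasCompactSupport_sq hcs)) (hind.const_mul _) fun x => ?_
    have hc2 : |acC (u x)| ≤ 2 := by
      have h0 := sq_nonneg (u x)
      have h1 : u x ^ 2 ≤ 1 := by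
        rw [← sq_abs]; exact pow_le_one₀ (abs_nonneg _) (h.sol.bound x)
      rw [acC, abs_le]
      constructor <;> linarith
    exact mul_le_mul hc2 (hsq x) (sq_nonneg _) (by norm_num)
  have h2 : ∫ x, gsq b ζ x ≤ Fintype.card ι * (chiD / 1) ^ 2 * V := by
    rw [← hvol, ← integral_const_mul]
    exact integral_mono ((continuous_gsq b hζ).integrable_of_hasCompactSupport
      (hasCompactSupport_gsq b hcs)) (hind.const_mul _) hgr
  linarith

theorem noDegen (h : Setup b S i₀ τ u M ub) : NoDegen ub := by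
  intro p a κ ha hflat hκ
  by_contra hκ0
  obtain ⟨r, hr, hr1, hseq⟩ := h.exists_seq
  obtain ⟨C, hC0, hC⟩ := h.log_bound
  obtain ⟨T, hT, hTn⟩ := hseq p
  have hM := h.reg.nonneg
  -- basis containing `a`
  have hon : Orthonormal ℝ ((↑) : ({a} : Set E) → E) := by
    rw [orthonormal_iff_ite]
    rintro ⟨x, hx⟩ ⟨y, hy⟩
    simp only [Set.mem_singleton_iff] at hx hy
    subst hx hy
    simp [ha]
  obtain ⟨w, b', hw, hb'⟩ := hon.exists_orthonormalBasis_extension
  classical
  set ia : w := ⟨a, hw rfl⟩ with hia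
  have hbia : b' ia = a := by rw [hb']
  set n := Fintype.card w with hn
  set ρ : ℝ := r / (n + 1) with hρ
  have hρ0 : 0 < ρ := by positivity
  set P : ℝ := ∏ _i ∈ (Finset.univ.erase ia), 2 * ρ with hP
  have hP0 : 0 < P := Finset.prod_pos fun _ _ => by positivity
  -- choice of the width
  set δ : ℝ := min (min ρ (|κ| / (2 * (M + 1))))
    (κ ^ 2 * P / (4 * ((M + 1) ^ 2) * (C + 1) * 4)) with hδ
  have hκa : 0 < |κ| := abs_pos.2 hκ0
  have hδ0 : 0 < δ := by
    refine lt_min (lt_min hρ0 (by positivity)) ?_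
    positivity
  have hδρ : δ ≤ ρ := (min_le_left _ _).trans (min_le_left _ _)
  have hδM : (M + 1) * δ ≤ |κ| / 2 := by
    have : δ ≤ |κ| / (2 * (M + 1)) := (min_le_left _ _).trans (min_le_right _ _)
    rw [le_div_iff₀ (by positivity)] at this
    linarith
  have hδ3 : δ * (4 * ((M + 1) ^ 2) * (C + 1) * 4) ≤ κ ^ 2 * P := by
    have : δ ≤ κ ^ 2 * P / (4 * ((M + 1) ^ 2) * (C + 1) * 4) := min_le_right _ _
    rwa [le_div_iff₀ (by positivity)] at this
  set U := box b' p (fun i => if i = ia then δ else ρ) with hU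
  have hUB : U ⊆ Metric.closedBall p r := by
    intro x hx
    rw [Metric.mem_closedBall, dist_eq_norm]
    calc ‖x - p‖ ≤ ∑ i, |co b' p i x| := norm_sub_le_sum b' p x
      _ ≤ ∑ _i : w, ρ := Finset.sum_le_sum fun i _ =>
          (hx i).trans (by show (if i = ia then δ else ρ) ≤ ρ; split_ifs <;> linarith)
      _ ≤ r := by
          simp only [Finset.sum_const, Finset.card_univ, nsmul_eq_mul, ← hn, hρ]
          rw [mul_div_assoc', div_le_iff₀ (by positivity)]
          nlinarith
  have hvolU : (volume : Measure E).real U = 2 * δ * P := by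
    rw [hU, volume_box b' p (fun i => by split_ifs <;> linarith),
      ← Finset.mul_prod_erase Finset.univ _ (Finset.mem_univ ia), if_pos rfl, hP]
    congr 1
    exact Finset.prod_congr rfl fun i hi => by rw [if_neg (Finset.ne_of_mem_erase hi)]
  have hproj : ∀ x ∈ U, |fderiv ℝ ub x a| ≤ M * δ ∧ |κ| / 2 ≤ |hs ub x a a| := by
    intro x hx
    set s := ⟪a, x - p⟫ with hs'
    have hsδ : |s| ≤ δ := by
      have := hx ia
      simpa [co, hbia] using this
    set y := x - p - s • a with hy'
    have hy : ⟪a, y⟫ = 0 := by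
      rw [hy', inner_sub_right, inner_smul_right, inner_self_one ha, ← hs']; ring
    have hxy : ‖x - (p + y)‖ ≤ δ := by
      rw [show x - (p + y) = s • a by simp only [hy']; abel, norm_smul, ha, mul_one,
        Real.norm_eq_abs]
      exact hsδ
    constructor
    · have := h.profileReg.lipD h.profileSol.smooth a x (p + y)
      rw [hflat y hy a, sub_zero, ha, mul_one] at this
      exact this.trans (mul_le_mul_of_nonneg_left hxy hM)
    · have := h.profileReg.lip x (p + y) a a
      rw [hκ y hy, ha, mul_one, mul_one] at this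
      have h1 : M * ‖x - (p + y)‖ ≤ M * δ := mul_le_mul_of_nonneg_left hxy hM
      have h2 := abs_sub_abs_le_abs_sub κ (hs ub x a a)
      rw [abs_sub_comm] at h2
      nlinarith
  have hUm : MeasurableSet U := (isClosed_box b' p _).measurableSet
  have hUc : IsCompact U := isCompact_box b' p _
  -- the estimate along the sequence
  have hlim : Tendsto (fun k => ∫ x in U, hs u (x + T k • b i₀) a a ^ 2) atTop
      (𝓝 (∫ x in U, hs ub x a a ^ 2)) := by
    refine tendsto_integral_of_dominated_convergence (fun _ => M ^ 2)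
      (fun k => ((continuous_shift ((continuous_hs h.sol.smooth a a).pow 2) _)).aestronglyMeasurable)
      (integrableOn_const hUc.measure_lt_top.ne)
      (fun k => Filter.Eventually.of_forall fun x => ?_)
      (Filter.Eventually.of_forall fun x => ((h.profile.second x a a).comp hT).pow 2)
    rw [Real.norm_eq_abs, abs_of_nonneg (sq_nonneg _), ← sq_abs]
    exact pow_le_pow_left₀ (abs_nonneg _)
      (by simpa [ha] using h.reg.second (x + T k • b i₀) a a) 2
  have hunif : ∀ η > 0, ∀ᶠ k in atTop, ∀ x ∈ U,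
      |fderiv ℝ u (x + T k • b i₀) a - fderiv ℝ ub x a| ≤ η := fun η hη =>
    uniform_of_lipschitz (F := fun k x => fderiv ℝ u (x + T k • b i₀) a)
      (f := fun x => fderiv ℝ ub x a) hM
      (fun k x y => by
        simpa [ha] using h.reg.lipD h.sol.smooth a (x + T k • b i₀) (y + T k • b i₀))
      (fun x y => by simpa [ha] using h.profileReg.lipD h.profileSol.smooth a x y)
      (fun x => (h.profile.first x a).comp hT) hUc hη
  have hup : ∫ x in U, hs ub x a a ^ 2 ≤ 2 * ((M + 1) * δ) ^ 2 * C := by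
    have h0 : Tendsto (fun k : ℕ => 2 * (1 / ((k : ℝ) + 1)) + 2 * ((M + 1) * δ) ^ 2 * C) atTop
        (𝓝 (2 * ((M + 1) * δ) ^ 2 * C)) := by
      simpa using ((tendsto_one_div_add_atTop_nhds_zero_nat (𝕜 := ℝ)).const_mul (2 : ℝ)).add_const
        (2 * ((M + 1) * δ) ^ 2 * C)
    refine le_of_tendsto_of_tendsto hlim h0 ?_
    filter_upwards [hunif δ hδ0] with k hk
    set L : E → ℝ := fun x => gsq b (dd u (b i₀)) (x + T k • b i₀)
      / dd u (b i₀) (x + T k • b i₀) ^ 2 with hLd
    have hLc : Continuous L :=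
      continuous_shift ((continuous_gsq b h.cont_v).div (h.cont_v.continuous.pow 2)
        fun x => pow_ne_zero 2 (h.mono x).ne') _
    have hL0 : ∀ x, 0 ≤ L x := fun x => div_nonneg (gsq_nonneg _ _ _) (sq_nonneg _)
    have hG : Continuous (fun x => gtot b i₀ u (x + T k • b i₀)) :=
      continuous_shift h.continuous_gtot _
    have hK := isCompact_closedBall p r
    have hioG := hG.continuousOn.integrableOn_compact (μ := (volume : Measure E)) hK
    have hioL := hLc.continuousOn.integrableOn_compact (μ := (volume : Measure E)) hK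
    calc ∫ x in U, hs u (x + T k • b i₀) a a ^ 2
        ≤ ∫ x in U, (2 * gtot b i₀ u (x + T k • b i₀) + 2 * ((M + 1) * δ) ^ 2 * L x) := by
          refine setIntegral_mono_on ((continuous_shift ((continuous_hs h.sol.smooth a a).pow 2)
            _).continuousOn.integrableOn_compact hUc)
            (IntegrableOn.mono_set (show IntegrableOn (fun x => 2 * gtot b i₀ u (x + T k • b i₀)
              + 2 * ((M + 1) * δ) ^ 2 * L x) (Metric.closedBall p r) volume from
                (hioG.const_mul 2).add (hioL.const_mul _)) hUB) hUm fun x hx => ?_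
          refine (h.hs_sq_le ha _).trans (add_le_add le_rfl ?_)
          refine mul_le_mul_of_nonneg_right (mul_le_mul_of_nonneg_left ?_ (by norm_num)) (hL0 x)
          rw [← sq_abs]
          refine pow_le_pow_left₀ (abs_nonneg _) ?_ 2
          have a1 := hk x hx
          have a2 := (hproj x hx).1
          have a3 := abs_sub_abs_le_abs_sub (fderiv ℝ u (x + T k • b i₀) a) (fderiv ℝ ub x a)
          linarith
      _ ≤ ∫ x in Metric.closedBall p r,
            (2 * gtot b i₀ u (x + T k • b i₀) + 2 * ((M + 1) * δ) ^ 2 * L x) :=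
          setIntegral_mono_set (show IntegrableOn (fun x => 2 * gtot b i₀ u (x + T k • b i₀)
              + 2 * ((M + 1) * δ) ^ 2 * L x) (Metric.closedBall p r) volume from
                (hioG.const_mul 2).add (hioL.const_mul _))
            (Filter.Eventually.of_forall fun x =>
              add_nonneg (mul_nonneg zero_le_two (gtot_nonneg _))
                (mul_nonneg (by positivity) (hL0 x)))
            (Filter.Eventually.of_forall hUB)
      _ ≤ _ := by
          rw [integral_add (hioG.const_mul 2) (hioL.const_mul _), integral_const_mul,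
            integral_const_mul]
          refine add_le_add (mul_le_mul_of_nonneg_left (hTn k).le zero_le_two) ?_
          refine mul_le_mul_of_nonneg_left ?_ (by positivity)
          rw [hLd, ← setIntegral_ball_shift (fun y => gsq b (dd u (b i₀)) y / dd u (b i₀) y ^ 2)]
          exact hC _ r hr1
  have hlow : (|κ| / 2) ^ 2 * (2 * δ * P) ≤ ∫ x in U, hs ub x a a ^ 2 := by
    rw [← hvolU]
    refine setIntegral_ge_of_const_le_real hUm hUc.measure_lt_top.ne (fun x hx => ?_)
      (((continuous_hs h.profileSol.smooth a a).pow 2).continuousOn.integrableOn_compact hUc)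
    rw [← sq_abs (hs ub x a a)]
    exact pow_le_pow_left₀ (by positivity) (hproj x hx).2 2
  have h5 : κ ^ 2 * P * δ / 2 ≤ 2 * ((M + 1) * δ) ^ 2 * C := by
    refine le_trans (le_of_eq ?_) (hlow.trans hup)
    rw [div_pow, sq_abs]
    ring
  have h6 : 0 < κ ^ 2 * P := by positivity
  nlinarith [mul_le_mul_of_nonneg_left hδ3 hδ0.le, sq_nonneg ((M + 1) * δ), mul_pos h6 hδ0]

/-- Stability excludes the constant profile `0`. -/
theorem const_ne_zero (h : Setup b S i₀ τ u M ub) : ¬ ∀ x, ub x = 0 := by
  intro hz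
  set n := Fintype.card ι with hn
  set L : ℝ := (n : ℝ) * chiD * 2 ^ n + 1 with hLd
  have hD := chiD_nonneg
  have hL : 0 < L := by positivity
  obtain ⟨hcs, hsq, hgr, hone⟩ := cut_all b (0 : E) hL
  set ζ := pcut b (0 : E) Finset.univ L with hζd
  have hζ : ContDiff ℝ 1 ζ := contDiff_pcut b _ _ L
  have hstab : ∀ T : ℝ, 0 ≤ (∫ x, acC (u (x + T • b i₀)) * ζ x ^ 2) + ∫ x, gsq b ζ x := by
    intro T
    set ζT : E → ℝ := fun y => ζ (y + -(T • b i₀)) with hζT
    have hh := (log_cacc b (continuous_acC.comp h.sol.smooth.continuous) h.cont_v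
      (hζ.comp (contDiff_id.add contDiff_const)) (ζ := ζT)
      (hcs.comp_homeomorph (Homeomorph.addRight (-(T • b i₀)))) h.mono (weak_dd h.sol _)).1
    have e1 : ∫ x, acC (u x) * ζT x ^ 2 = ∫ x, acC (u (x + T • b i₀)) * ζ x ^ 2 := by
      rw [← integral_add_right_eq_self (fun x => acC (u x) * ζT x ^ 2) (T • b i₀)]
      simp [hζT]
    have e2 : ∫ x, gsq b ζT x = ∫ x, gsq b ζ x := by
      rw [← integral_add_right_eq_self (fun x => gsq b ζT x) (T • b i₀)]
      simp [hζT, gsq, fderiv_shift]
    simp only [Function.comp_apply] at hh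
    rw [e1, e2] at hh
    exact hh
  have hlim : Tendsto (fun T : ℝ => ∫ x, acC (u (x + T • b i₀)) * ζ x ^ 2) atTop
      (𝓝 (∫ x, (-1) * ζ x ^ 2)) := by
    refine tendsto_integral_filter_of_dominated_convergence (fun x => 2 * ζ x ^ 2)
      (Filter.Eventually.of_forall fun T => (((continuous_acC.comp h.sol.smooth.continuous).comp
        (by fun_prop)).mul (hζ.continuous.pow 2)).aestronglyMeasurable)
      (Filter.Eventually.of_forall fun T => Filter.Eventually.of_forall fun x => ?_)
      ((((hζ.continuous.pow 2)).integrable_of_hasCompactSupport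
        (hasCompactSupport_sq hcs)).const_mul 2)
      (Filter.Eventually.of_forall fun x => ?_)
    · rw [Real.norm_eq_abs, abs_mul, abs_of_nonneg (sq_nonneg (ζ x))]
      refine mul_le_mul_of_nonneg_right ?_ (sq_nonneg _)
      have h1 : u (x + T • b i₀) ^ 2 ≤ 1 := by
        rw [← sq_abs]; exact pow_le_one₀ (abs_nonneg _) (h.sol.bound _)
      have h2 := sq_nonneg (u (x + T • b i₀))
      rw [acC, abs_le]
      constructor <;> linarith
    · have h1 := ((continuous_acC.tendsto _).comp (h.profile.val x)).mul_const (ζ x ^ 2)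
      rw [hz x] at h1
      simpa [acC] using h1
  have hle : ∫ x, ζ x ^ 2 ≤ ∫ x, gsq b ζ x := by
    have := ge_of_tendsto (hlim.add_const (∫ x, gsq b ζ x)) (Filter.Eventually.of_forall hstab)
    rw [integral_const_mul] at this
    linarith
  have hind : ∀ R : ℝ, Integrable ((box b (0 : E) (fun _ => R)).indicator (1 : E → ℝ)) := fun R =>
    (integrableOn_const (isCompact_box b _ _).measure_lt_top.ne).integrable_indicator
      (isClosed_box b _ _).measurableSet
  have hvol : ∀ R : ℝ, 0 ≤ R →
      ∫ x, (box b (0 : E) (fun _ => R)).indicator (1 : E → ℝ) x = (2 * R) ^ n := by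
    intro R hR
    rw [integral_indicator_one (isClosed_box b _ _).measurableSet, volume_box b _ (fun _ => hR)]
    simp [hn]
  have hlow : (2 * L) ^ n ≤ ∫ x, ζ x ^ 2 := by
    rw [← hvol L hL.le]
    refine integral_mono (hind L) ((hζ.continuous.pow 2).integrable_of_hasCompactSupport
      (hasCompactSupport_sq hcs)) fun x => ?_
    by_cases hx : x ∈ box b (0 : E) (fun _ => L)
    · simp [hx, hone x hx]
    · simp only [Set.indicator_of_notMem hx]
      exact sq_nonneg _
  have hup : ∫ x, gsq b ζ x ≤ n * (chiD / L) ^ 2 * (2 * (2 * L)) ^ n := by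
    rw [← hvol (2 * L) (by positivity), ← integral_const_mul]
    exact integral_mono ((continuous_gsq b hζ).integrable_of_hasCompactSupport
      (hasCompactSupport_gsq b hcs)) ((hind _).const_mul _) hgr
  have h7 := hlow.trans (hle.trans hup)
  rw [show (2 * (2 * L)) ^ n = 2 ^ n * (2 * L) ^ n by rw [← mul_pow], ← mul_assoc] at h7
  have h8 : 1 ≤ (n : ℝ) * (chiD / L) ^ 2 * 2 ^ n :=
    le_of_mul_le_mul_right (by rw [one_mul]; exact h7) (by positivity)
  rw [div_pow, mul_div_assoc', div_mul_eq_mul_div, le_div_iff₀ (by positivity), one_mul] at h8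
  have h2n : (1 : ℝ) ≤ 2 ^ n := one_le_pow₀ (by norm_num)
  have hnn : (0 : ℝ) ≤ n := Nat.cast_nonneg n
  rcases Nat.eq_zero_or_pos n with h0 | h0
  · rw [h0, Nat.cast_zero] at h8
    nlinarith
  · have hn1 : (1 : ℝ) ≤ n := by exact_mod_cast h0
    have h9 : (n : ℝ) * chiD ^ 2 * 2 ^ n ≤ ((n : ℝ) * chiD * 2 ^ n) ^ 2 := by
      have : (1 : ℝ) ≤ n * 2 ^ n := one_le_mul_of_one_le_of_one_le hn1 h2n
      nlinarith [mul_le_mul_of_nonneg_left this (by positivity : (0 : ℝ) ≤ n * chiD ^ 2 * 2 ^ n)]
    have h10 : 0 ≤ (n : ℝ) * chiD * 2 ^ n := by positivity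
    nlinarith

end Setup

/-- Classification of the limit profile. -/
theorem front (b : OrthonormalBasis ι ℝ E) : FrontSpec b := by
  intro S i₀ τ u M ub h
  rcases front_or_constant h.profileSol h.profileReg h.parallel h.noDegen with
    ⟨q, hq, hconst⟩ | ⟨a, ha, hle⟩
  · refine ⟨0, by simp, fun x => ?_⟩
    have hW : acW q = 0 := by
      have hq' : q * ((q - 1) * (q + 1)) = 0 := by unfold acF at hq; linarith
      rcases mul_eq_zero.1 hq' with h1 | h1
      · exact absurd (fun x => (hconst x).trans h1) h.const_ne_zero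
      · rcases mul_eq_zero.1 h1 with h2 | h2
        · rw [show q = 1 by linarith]; simp [acW]
        · rw [show q = -1 by linarith]; simp [acW]
    have hub : ub = fun _ => q := funext hconst
    simp [edens, gsq, hub, hW]
  · exact ⟨a, ha.le, hle⟩

end Vale.Agent.P134P
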