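import Vale.Agent.P134P.Base

/-!
# P134 periodic case: interior gradient bound by a barrier

If `g` is `C^2` on the whole space, `|g| ≤ A` and `|Δ g| ≤ B`, then the gradient of `g` is bounded
by a dimensional multiple of `A + B` (comparison of the odd part of `g` with a quadratic barrier).
-/

open scoped BigOperators RealInnerProductSpace
open Filter Topology

namespace Vale.Agent.P134P

variable {E : Type*} [NormedAddCommGroup E] [InnerProductSpace ℝ E] [FiniteDimensional ℝ E]
  {ι : Type*} [Fintype ι]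

/-- Second derivative test in one variable. -/
theorem second_nonpos {h h1 : ℝ → ℝ} {h2 : ℝ} (hh : ∀ s, HasDerivAt h (h1 s) s)
    (hh1 : HasDerivAt h1 h2 0) (hmax : IsLocalMax h 0) : h2 ≤ 0 := by
  by_contra hc
  push Not at hc
  have hd : deriv h = h1 := funext fun s => (hh s).deriv
  have h0 : h1 0 = 0 := hmax.hasDerivAt_eq_zero (hh 0)
  have hmin : IsLocalMin h 0 := by
    refine isLocalMin_of_deriv_deriv_pos ?_ ?_ (hh 0).continuousAt
    · rw [hd, hh1.deriv]; exact hc
    · rw [hd, h0]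
  have heq : h =ᶠ[𝓝 (0:ℝ)] fun _ => h 0 := by
    filter_upwards [hmin, hmax] with s a b
    exact le_antisymm b a
  have h3 : deriv h =ᶠ[𝓝 (0:ℝ)] deriv (fun _ => h 0) := heq.deriv
  rw [hd] at h3
  have h4 : (fun _ : ℝ => (0:ℝ)) =ᶠ[𝓝 (0:ℝ)] h1 := by
    filter_upwards [h3] with s hs
    simpa using hs.symm
  have h5 : HasDerivAt (fun _ : ℝ => (0:ℝ)) h2 0 := hh1.congr_of_eventuallyEq h4
  have h6 : h2 = 0 := h5.unique (hasDerivAt_const (0:ℝ) (0:ℝ))
  linarith

omit [FiniteDimensional ℝ E] in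
theorem line_hasDerivAt {g : E → ℝ} {g1 : E → (E →L[ℝ] ℝ)} (hg1 : ∀ x, HasFDerivAt g (g1 x) x)
    (q v : E) (s : ℝ) : HasDerivAt (fun s : ℝ => g (q + s • v)) (g1 (q + s • v) v) s := by
  have h : HasDerivAt (fun s : ℝ => q + s • v) v s := by
    simpa using ((hasDerivAt_id s).smul_const v).const_add q
  exact (hg1 _).comp_hasDerivAt s h

omit [FiniteDimensional ℝ E] in
theorem line_hasDerivAt_apply {F : E → (E →L[ℝ] ℝ)} {F1 : E → (E →L[ℝ] E →L[ℝ] ℝ)}
    (hF : ∀ x, HasFDerivAt F (F1 x) x) (q v a : E) (s : ℝ) :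
    HasDerivAt (fun s : ℝ => F (q + s • v) a) (F1 (q + s • v) v a) s := by
  have h : HasDerivAt (fun s : ℝ => q + s • v) v s := by
    simpa using ((hasDerivAt_id s).smul_const v).const_add q
  have := ((hF _).comp_hasDerivAt s h).clm_apply (hasDerivAt_const s a)
  simpa using this

omit [FiniteDimensional ℝ E] in
theorem norm_le_sum_coord (b : OrthonormalBasis ι ℝ E) (x : E) : ‖x‖ ≤ ∑ i, |⟪b i, x⟫| := by
  calc ‖x‖ = ‖∑ i, ⟪b i, x⟫ • b i‖ := by rw [b.sum_repr']
    _ ≤ ∑ i, ‖⟪b i, x⟫ • b i‖ := norm_sum_le _ _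
    _ = ∑ i, |⟪b i, x⟫| := by simp [norm_smul]

omit [FiniteDimensional ℝ E] in
theorem abs_coord_le (b : OrthonormalBasis ι ℝ E) (i : ι) (x : E) : |⟪b i, x⟫| ≤ ‖x‖ := by
  simpa using abs_real_inner_le_norm (b i) x

section barrier

variable [DecidableEq ι] (b : OrthonormalBasis ι ℝ E) (i0 : ι) (A K : ℝ)

/-- The reflection in the coordinate `i0`. -/
noncomputable def refl0 (x : E) : E := x - (2 * ⟪b i0, x⟫) • b i0

/-- The barrier. -/
noncomputable def barrier (x : E) : ℝ :=
  A * (∑ j, if j = i0 then (0:ℝ) else ⟪b j, x⟫ ^ 2) + K * ⟪b i0, x⟫ * (2 - ⟪b i0, x⟫)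

omit [FiniteDimensional ℝ E] in
theorem coord_line (p : E) (i j : ι) (s : ℝ) :
    ⟪b j, p + s • b i⟫ = ⟪b j, p⟫ + (if j = i then s else 0) := by
  rw [inner_add_right, real_inner_smul_right, b.inner_eq_ite]
  split_ifs <;> simp

omit [FiniteDimensional ℝ E] in
theorem barrier_line (p : E) (i : ι) (s : ℝ) :
    barrier b i0 A K (p + s • b i) = barrier b i0 A K p
      + s * (if i = i0 then K * (2 - 2 * ⟪b i0, p⟫) else 2 * A * ⟪b i, p⟫)
      + s ^ 2 * (if i = i0 then -K else A) := by
  have hsum : (∑ j, if j = i0 then (0:ℝ) else ⟪b j, p + s • b i⟫ ^ 2)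
      = (∑ j, if j = i0 then (0:ℝ) else ⟪b j, p⟫ ^ 2)
        + (if i = i0 then 0 else 2 * s * ⟪b i, p⟫ + s ^ 2) := by
    have e : (if i = i0 then (0:ℝ) else 2 * s * ⟪b i, p⟫ + s ^ 2)
        = ∑ j, if j = i then (if i = i0 then (0:ℝ) else 2 * s * ⟪b i, p⟫ + s ^ 2) else 0 := by
      simp
    rw [e, ← Finset.sum_add_distrib]
    refine Finset.sum_congr rfl fun j _ => ?_
    rw [coord_line]
    by_cases h1 : j = i0
    · subst h1
      by_cases h2 : j = i
      · subst h2; simp
      · simp [h2]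
    · by_cases h2 : j = i
      · subst h2; simp [h1]; ring
      · simp [h1, h2]
  unfold barrier
  rw [hsum, coord_line b p i i0]
  by_cases h : i = i0
  · subst h; simp; ring
  · have h' : i0 ≠ i := fun e => h e.symm
    simp [h, h']; ring

omit [FiniteDimensional ℝ E] in
omit [DecidableEq ι] in
theorem refl0_line (p v : E) (s : ℝ) :
    refl0 b i0 (p + s • v) = refl0 b i0 p + s • refl0 b i0 v := by
  unfold refl0
  rw [inner_add_right, real_inner_smul_right]
  module

omit [FiniteDimensional ℝ E] in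
theorem refl0_basis (i : ι) :
    refl0 b i0 (b i) = b i ∨ refl0 b i0 (b i) = -(b i) := by
  unfold refl0
  rw [b.inner_eq_ite]
  by_cases h : i0 = i
  · right; subst h; simp; module
  · left; simp [h]

end barrier

/-- One-sided derivative bound. -/
theorem grad_upper [DecidableEq ι] (b : OrthonormalBasis ι ℝ E) {g : E → ℝ}
    {g1 : E → (E →L[ℝ] ℝ)} {g2 : E → (E →L[ℝ] E →L[ℝ] ℝ)}
    (hg1 : ∀ x, HasFDerivAt g (g1 x) x) (hg2 : ∀ x, HasFDerivAt g1 (g2 x) x)
    {A B : ℝ} (hA : ∀ x, |g x| ≤ A) (hB : ∀ x, |∑ i, g2 x (b i) (b i)| ≤ B) (x0 : E) (i0 : ι) :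
    g1 x0 (b i0) ≤ 2 * (A * Fintype.card ι + B) := by
  have hA0 : 0 ≤ A := le_trans (abs_nonneg _) (hA x0)
  have hB0 : 0 ≤ B := le_trans (abs_nonneg _) (hB x0)
  refine le_of_forall_pos_le_add fun ε hε => ?_
  set K : ℝ := A * Fintype.card ι + B + ε / 2 with hK
  suffices H : g1 x0 (b i0) ≤ 2 * K by rw [hK] at H; linarith
  have hn : (1:ℝ) ≤ Fintype.card ι := by
    have : 1 ≤ Fintype.card ι := Fintype.card_pos_iff.2 ⟨i0⟩
    exact_mod_cast this
  have hAK : A ≤ K := by
    rw [hK]; nlinarith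
  have hK0 : 0 ≤ K := le_trans hA0 hAK
  set F : E → ℝ := fun x =>
    (g (x0 + x) - g (x0 + refl0 b i0 x)) / 2 - barrier b i0 A K x with hF
  set Q : Set E := {x | 0 ≤ ⟪b i0, x⟫ ∧ ∀ i, |⟪b i, x⟫| ≤ 1} with hQ
  have hgc : Continuous g := continuous_iff_continuousAt.2 fun x => (hg1 x).continuousAt
  have hFc : Continuous F := by
    rw [hF]
    refine Continuous.sub (Continuous.div_const ?_ _) ?_
    · refine Continuous.sub (hgc.comp (by fun_prop)) (hgc.comp ?_)
      unfold refl0
      fun_prop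
    · unfold barrier
      refine Continuous.add (continuous_const.mul (continuous_finsetSum _ fun j _ => ?_))
        (by fun_prop)
      by_cases h : j = i0
      · simp [h]; fun_prop
      · simp [h]; fun_prop
  have hQcl : IsClosed Q := by
    have e : Q = {x | 0 ≤ ⟪b i0, x⟫} ∩ ⋂ i, {x | |⟪b i, x⟫| ≤ 1} := by
      ext x; simp [hQ]
    rw [e]
    exact (isClosed_le (by fun_prop) (by fun_prop)).inter
      (isClosed_iInter fun i => isClosed_le (by fun_prop) (by fun_prop))
  have hQb : Bornology.IsBounded Q := by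
    refine (Metric.isBounded_closedBall (x := (0:E)) (r := (Fintype.card ι : ℝ))).subset ?_
    intro x hx
    rw [mem_closedBall_zero_iff]
    refine (norm_le_sum_coord b x).trans ?_
    calc ∑ i, |⟪b i, x⟫| ≤ ∑ _i : ι, (1:ℝ) := Finset.sum_le_sum fun i _ => hx.2 i
      _ = Fintype.card ι := by simp
  have hQc : IsCompact Q := Metric.isCompact_of_isClosed_isBounded hQcl hQb
  have h0Q : (0:E) ∈ Q := by constructor <;> simp
  obtain ⟨p, hpQ, hpmax⟩ := hQc.exists_isMaxOn ⟨0, h0Q⟩ hFc.continuousOn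
  have hFp : F p ≤ 0 := by
    by_contra hc
    push Not at hc
    have hodd : ∀ x, (g (x0 + x) - g (x0 + refl0 b i0 x)) / 2 ≤ A := fun x => by
      have h1 := abs_le.1 (hA (x0 + x))
      have h2 := abs_le.1 (hA (x0 + refl0 b i0 x))
      linarith
    have hsum0 : ∀ j, j ≠ i0 →
        ⟪b j, p⟫ ^ 2 ≤ ∑ k, if k = i0 then (0:ℝ) else ⟪b k, p⟫ ^ 2 := by
      intro j hj
      have := Finset.single_le_sum (f := fun k => if k = i0 then (0:ℝ) else ⟪b k, p⟫ ^ 2)
        (fun k _ => by split_ifs <;> positivity) (Finset.mem_univ j)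
      simpa [hj] using this
    have hsnn : 0 ≤ ∑ k, if k = i0 then (0:ℝ) else ⟪b k, p⟫ ^ 2 :=
      Finset.sum_nonneg fun k _ => by split_ifs <;> positivity
    have hp01 : ⟪b i0, p⟫ ≤ 1 := (abs_le.1 (hpQ.2 i0)).2
    have hp0 : 0 < ⟪b i0, p⟫ := by
      rcases hpQ.1.lt_or_eq with h | h
      · exact h
      · exfalso
        have e : refl0 b i0 p = p := by simp [refl0, ← h]
        have : 0 ≤ barrier b i0 A K p := by
          unfold barrier; rw [← h]; simpa using mul_nonneg hA0 hsnn
        simp only [hF, e, sub_self, zero_div, zero_sub] at hc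
        linarith
    have hlt : ∀ j, |⟪b j, p⟫| < 1 := by
      intro j
      rcases (hpQ.2 j).lt_or_eq with h | h
      · exact h
      · exfalso
        have hb : A ≤ barrier b i0 A K p := by
          unfold barrier
          by_cases hj : j = i0
          · subst hj
            rw [abs_of_pos hp0] at h
            rw [h]
            nlinarith
          · have h1 : (1:ℝ) ≤ ∑ k, if k = i0 then (0:ℝ) else ⟪b k, p⟫ ^ 2 := by
              refine le_trans ?_ (hsum0 j hj)
              rw [← sq_abs, h]; norm_num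
            have h2 : 0 ≤ K * ⟪b i0, p⟫ * (2 - ⟪b i0, p⟫) := by
              have : 0 ≤ 2 - ⟪b i0, p⟫ := by linarith
              positivity
            nlinarith
        simp only [hF] at hc
        linarith [hodd p]
    have hev : ∀ᶠ x in 𝓝 p, x ∈ Q := by
      have h1 : ∀ᶠ x in 𝓝 p, 0 < ⟪b i0, x⟫ :=
        (isOpen_lt continuous_const
          (show Continuous fun x : E => ⟪b i0, x⟫ by fun_prop)).eventually_mem hp0
      have h2 : ∀ᶠ x in 𝓝 p, ∀ j, |⟪b j, x⟫| < 1 :=
        eventually_all.2 fun j => (isOpen_lt (show Continuous fun x : E => |⟪b j, x⟫| by fun_prop)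
          continuous_const).eventually_mem (hlt j)
      filter_upwards [h1, h2] with x a c
      exact ⟨a.le, fun j => (c j).le⟩
    have hdir : ∀ i, (g2 (x0 + p) (b i) (b i) - g2 (x0 + refl0 b i0 p) (b i) (b i)) / 2
        - 2 * (if i = i0 then -K else A) ≤ 0 := by
      intro i
      set v := b i with hv
      set w := refl0 b i0 (b i) with hw
      set c1 : ℝ := if i = i0 then K * (2 - 2 * ⟪b i0, p⟫) else 2 * A * ⟪b i, p⟫ with hc1
      set c2 : ℝ := if i = i0 then -K else A with hc2
      set q1 := x0 + p with hq1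
      set q2 := x0 + refl0 b i0 p with hq2
      set h : ℝ → ℝ := fun s => (g (q1 + s • v) - g (q2 + s • w)) / 2
        - (barrier b i0 A K p + s * c1 + s ^ 2 * c2) with hhdef
      have heqF : h = fun s => F (p + s • b i) := by
        funext s
        simp only [hhdef, hF, refl0_line, barrier_line, hq1, hq2, hv, hw, hc1, hc2, add_assoc]
      have hmax : IsLocalMax h 0 := by
        have hcont : Tendsto (fun s : ℝ => p + s • b i) (𝓝 0) (𝓝 p) := by
          have : Continuous fun s : ℝ => p + s • b i := by fun_prop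
          simpa using this.tendsto 0
        filter_upwards [hcont.eventually hev] with s hs
        rw [heqF]
        simpa using hpmax hs
      have hh : ∀ s, HasDerivAt h ((g1 (q1 + s • v) v - g1 (q2 + s • w) w) / 2
          - (c1 + 2 * s * c2)) s := by
        intro s
        have hp2 : HasDerivAt (fun s : ℝ => barrier b i0 A K p + s * c1 + s ^ 2 * c2)
            (c1 + 2 * s * c2) s := by
          have := (((hasDerivAt_id s).mul_const c1).const_add (barrier b i0 A K p)).add
            (((hasDerivAt_id s).pow 2).mul_const c2)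
          refine this.congr_deriv ?_
          simp
        exact (((line_hasDerivAt hg1 q1 v s).sub (line_hasDerivAt hg1 q2 w s)).div_const 2).sub hp2
      have hh1 : HasDerivAt (fun s => (g1 (q1 + s • v) v - g1 (q2 + s • w) w) / 2
          - (c1 + 2 * s * c2)) ((g2 q1 v v - g2 q2 w w) / 2 - 2 * c2) 0 := by
        have hl : HasDerivAt (fun s : ℝ => c1 + 2 * s * c2) (2 * c2) 0 := by
          simpa using (((hasDerivAt_id (0:ℝ)).const_mul 2).mul_const c2).const_add c1
        have := (((line_hasDerivAt_apply hg2 q1 v v 0).sub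
          (line_hasDerivAt_apply hg2 q2 w w 0)).div_const 2).sub hl
        exact this.congr_deriv (by simp)
      have hww : g2 q2 w w = g2 q2 v v := by
        rcases refl0_basis b i0 i with e | e <;> simp [hw, e, hv]
      have := second_nonpos hh hh1 hmax
      rw [hww] at this
      exact this
    have hs := Finset.sum_nonpos (s := Finset.univ) fun i _ => hdir i
    rw [Finset.sum_sub_distrib, ← Finset.sum_div, Finset.sum_sub_distrib, ← Finset.mul_sum] at hs
    have hc2 : ∑ i, (if i = i0 then -K else A) = A * Fintype.card ι - A - K := by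
      have e : ∀ i, (if i = i0 then -K else A) = A + (if i = i0 then -K - A else 0) := fun i => by
        split_ifs <;> ring
      simp only [e, Finset.sum_add_distrib, Finset.sum_ite_eq', Finset.mem_univ, if_true]
      simp; ring
    rw [hc2] at hs
    have h1 := abs_le.1 (hB (x0 + p))
    have h2 := abs_le.1 (hB (x0 + refl0 b i0 p))
    rw [hK] at hs
    linarith
  have hFQ : ∀ x ∈ Q, F x ≤ 0 := fun x hx => le_trans (hpmax hx) hFp
  set ψ : ℝ → ℝ := fun t => 4 * K * t - (g (x0 + t • b i0) - g (x0 + t • -(b i0))) with hψ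
  have hψd : HasDerivAt ψ (4 * K - (g1 x0 (b i0) - g1 x0 (-(b i0)))) 0 := by
    have := ((hasDerivAt_id (0:ℝ)).const_mul (4 * K)).sub
      ((line_hasDerivAt hg1 x0 (b i0) 0).sub (line_hasDerivAt hg1 x0 (-(b i0)) 0))
    exact this.congr_deriv (by simp)
  have hψ0 : ∀ t ∈ Set.Ioc (0:ℝ) 1, 0 ≤ ψ t := by
    intro t ht
    have hin : ∀ j, ⟪b j, t • b i0⟫ = if j = i0 then t else 0 := fun j => by
      simpa using coord_line b 0 i0 j t
    have hQt : t • b i0 ∈ Q := by
      refine ⟨?_, fun j => ?_⟩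
      · rw [hin]; simpa using ht.1.le
      · rw [hin]; split_ifs
        · rw [abs_of_pos ht.1]; exact ht.2
        · simp
    have hr : refl0 b i0 (t • b i0) = t • -(b i0) := by
      unfold refl0; rw [hin, if_pos rfl]; module
    have hb : barrier b i0 A K (t • b i0) = K * t * (2 - t) := by
      unfold barrier
      have : ∀ j, (if j = i0 then (0:ℝ) else ⟪b j, t • b i0⟫ ^ 2) = 0 := fun j => by
        rw [hin]; split_ifs <;> simp
      rw [Finset.sum_congr rfl (fun j _ => this j)]
      simp [hin]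
    have := hFQ _ hQt
    simp only [hF, hr, hb] at this
    simp only [hψ]
    nlinarith [sq_nonneg t]
  have hlim := hψd.tendsto_slope_zero_right
  have hge : 0 ≤ 4 * K - (g1 x0 (b i0) - g1 x0 (-(b i0))) := by
    refine ge_of_tendsto hlim ?_
    filter_upwards [Ioc_mem_nhdsGT (show (0:ℝ) < 1 by norm_num)] with t ht
    have h0 : ψ 0 = 0 := by simp [hψ]
    rw [zero_add, h0, sub_zero, smul_eq_mul]
    exact mul_nonneg (inv_nonneg.2 ht.1.le) (hψ0 t ht)
  rw [map_neg] at hge
  linarith

/-- Gradient bound: `|D g| ≤ 2 n (A n + B)`. -/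
theorem grad_bound (b : OrthonormalBasis ι ℝ E) {g : E → ℝ} {g1 : E → (E →L[ℝ] ℝ)}
    {g2 : E → (E →L[ℝ] E →L[ℝ] ℝ)}
    (hg1 : ∀ x, HasFDerivAt g (g1 x) x) (hg2 : ∀ x, HasFDerivAt g1 (g2 x) x)
    {A B : ℝ} (hA : ∀ x, |g x| ≤ A) (hB : ∀ x, |∑ i, g2 x (b i) (b i)| ≤ B) (x a : E) :
    |g1 x a| ≤ 2 * Fintype.card ι * (A * Fintype.card ι + B) * ‖a‖ := by
  classical
  have hup : ∀ i, |g1 x (b i)| ≤ 2 * (A * Fintype.card ι + B) := by
    intro i
    refine abs_le.2 ⟨?_, grad_upper b hg1 hg2 hA hB x i⟩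
    have := grad_upper b (g := fun y => -g y) (g1 := fun y => -g1 y) (g2 := fun y => -g2 y)
      (fun y => (hg1 y).neg) (fun y => (hg2 y).neg) (A := A) (B := B)
      (fun y => by simpa using hA y) (fun y => by simpa using hB y) x i
    simp only [neg_apply] at this
    linarith
  calc |g1 x a| = |∑ i, ⟪b i, a⟫ * g1 x (b i)| := by
        conv_lhs => rw [← b.sum_repr' a]
        simp only [map_sum, map_smul, smul_eq_mul]
    _ ≤ ∑ i, |⟪b i, a⟫ * g1 x (b i)| := Finset.abs_sum_le_sum_abs _ _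
    _ ≤ ∑ _i : ι, ‖a‖ * (2 * (A * Fintype.card ι + B)) := by
        refine Finset.sum_le_sum fun i _ => ?_
        rw [abs_mul]
        exact mul_le_mul (abs_coord_le b i a) (hup i) (abs_nonneg _) (norm_nonneg _)
    _ = 2 * Fintype.card ι * (A * Fintype.card ι + B) * ‖a‖ := by
        simp; ring

end Vale.Agent.P134P
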