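import Vale.Agent.P134P.RegGradBound

/-!
# P134 periodic case: global regularity of bounded solutions and the limit profile

`regularity : RegularitySpec b` by the barrier gradient bound applied to first and second
differences, and `profile : ProfileSpec b` by monotone convergence along `e`.
-/

open scoped BigOperators RealInnerProductSpace
open Filter Topology

namespace Vale.Agent.P134P

variable {E : Type*} [NormedAddCommGroup E] [InnerProductSpace ℝ E] [FiniteDimensional ℝ E]
  {ι : Type*} [Fintype ι]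

omit [FiniteDimensional ℝ E] in
/-- Mean value bound. -/
theorem diff_bound {g : E → ℝ} {g1 : E → (E →L[ℝ] ℝ)} (hg1 : ∀ x, HasFDerivAt g (g1 x) x)
    {C : ℝ} (hC0 : 0 ≤ C) (hC : ∀ x a, |g1 x a| ≤ C * ‖a‖) (x y : E) :
    |g y - g x| ≤ C * ‖y - x‖ :=
  convex_univ.norm_image_sub_le_of_norm_hasFDerivWithin_le
    (fun z _ => (hg1 z).hasFDerivWithinAt)
    (fun z _ => ContinuousLinearMap.opNorm_le_bound _ hC0 fun a => hC z a)
    (Set.mem_univ x) (Set.mem_univ y)

omit [FiniteDimensional ℝ E] in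
theorem hasFDerivAt_fst {u : E → ℝ} (hu : ContDiff ℝ 2 u) (x : E) :
    HasFDerivAt u (fderiv ℝ u x) x :=
  (hu.differentiable (by norm_num) x).hasFDerivAt

omit [FiniteDimensional ℝ E] in
theorem hasFDerivAt_snd {u : E → ℝ} (hu : ContDiff ℝ 2 u) (x : E) :
    HasFDerivAt (fderiv ℝ u) (fderiv ℝ (fderiv ℝ u) x) x :=
  ((hu.fderiv_right (m := 1) (by norm_num)).differentiable (by norm_num) x).hasFDerivAt

omit [FiniteDimensional ℝ E] in
/-- A derivative is bounded by the Lipschitz constant of difference quotients. -/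
theorem abs_snd_le {F : E → (E →L[ℝ] ℝ)} {F1 : E → (E →L[ℝ] E →L[ℝ] ℝ)}
    (hF : ∀ x, HasFDerivAt F (F1 x) x) {C : ℝ} (hC0 : 0 ≤ C) (x a c : E)
    (hC : ∀ s : ℝ, |F (x + s • a) c - F x c| ≤ C * |s|) : |F1 x a c| ≤ C := by
  have h := line_hasDerivAt_apply hF x a c 0
  rw [zero_smul, add_zero] at h
  refine h.le_of_lip' hC0 (Eventually.of_forall fun s => ?_)
  simpa [Real.norm_eq_abs] using hC s

theorem acF_bound {a : ℝ} (ha : |a| ≤ 1) : |acF a| ≤ 1 := by
  unfold acF
  have := abs_le.1 ha
  have h1 : a ^ 2 ≤ 1 := by nlinarith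
  refine abs_le.2 ⟨?_, ?_⟩ <;> nlinarith [sq_nonneg a]

/-- Difference quotient of `acF`. -/
def acP (a b : ℝ) : ℝ := a ^ 2 + a * b + b ^ 2 - 1

theorem acF_sub (a b : ℝ) : acF a - acF b = (a - b) * acP a b := by
  unfold acF acP; ring

theorem acP_bound {a b : ℝ} (ha : |a| ≤ 1) (hb : |b| ≤ 1) : |acP a b| ≤ 2 := by
  have ha' := abs_le.1 ha
  have hb' := abs_le.1 hb
  unfold acP
  refine abs_le.2 ⟨?_, ?_⟩
  · nlinarith [sq_nonneg (a + b / 2), sq_nonneg b]
  · nlinarith

theorem acP_sub {a b c d : ℝ} (ha : |a| ≤ 1) (hb : |b| ≤ 1) (hc : |c| ≤ 1) (hd : |d| ≤ 1) :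
    |acP a b - acP c d| ≤ 3 * |a - c| + 3 * |b - d| := by
  have e : acP a b - acP c d = (a - c) * (a + c + b) + (b - d) * (b + d + c) := by
    unfold acP; ring
  rw [e]
  refine (abs_add_le _ _).trans (add_le_add ?_ ?_)
  · rw [abs_mul, mul_comm]
    refine mul_le_mul_of_nonneg_right ?_ (abs_nonneg _)
    refine (abs_add_le _ _).trans ?_
    linarith [abs_add_le a c]
  · rw [abs_mul, mul_comm]
    refine mul_le_mul_of_nonneg_right ?_ (abs_nonneg _)
    refine (abs_add_le _ _).trans ?_
    linarith [abs_add_le b d]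

/-- Every bounded entire solution has bounded first and second derivatives, and Lipschitz second
derivatives. -/
theorem regularity (b : OrthonormalBasis ι ℝ E) : RegularitySpec b := by
  intro u hu
  have hu1 := hasFDerivAt_fst hu.smooth
  have hu2 := hasFDerivAt_snd hu.smooth
  set n : ℝ := (Fintype.card ι : ℝ) with hn
  have hn0 : 0 ≤ n := by positivity
  have hlap : ∀ x, ∑ i, fderiv ℝ (fderiv ℝ u) x (b i) (b i) = acF (u x) := hu.eqn
  set M1 : ℝ := 2 * n * (1 * n + 1) with hM1
  have hM10 : 0 ≤ M1 := by positivity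
  have first : ∀ x a, |fderiv ℝ u x a| ≤ M1 * ‖a‖ := fun x a =>
    grad_bound b hu1 hu2 hu.bound (fun y => by rw [hlap]; exact acF_bound (hu.bound y)) x a
  have hdu : ∀ x y, |u y - u x| ≤ M1 * ‖y - x‖ := fun x y => diff_bound hu1 hM10 first x y
  set M2 : ℝ := 2 * n * (M1 * n + 2 * M1) with hM2
  have hM20 : 0 ≤ M2 := by positivity
  have hd1 : ∀ h x a, |fderiv ℝ u (x + h) a - fderiv ℝ u x a| ≤ M2 * ‖h‖ * ‖a‖ := by
    intro h x a
    have hA : ∀ y, |u (y + h) - u y| ≤ M1 * ‖h‖ := fun y => by simpa using hdu y (y + h)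
    have hB : ∀ y, |∑ i, (fderiv ℝ (fderiv ℝ u) (y + h) - fderiv ℝ (fderiv ℝ u) y) (b i) (b i)|
        ≤ 2 * (M1 * ‖h‖) := by
      intro y
      simp only [sub_apply, Finset.sum_sub_distrib, hlap]
      rw [acF_sub, abs_mul, mul_comm (2:ℝ)]
      exact mul_le_mul (hA y) (acP_bound (hu.bound _) (hu.bound _)) (abs_nonneg _) (by positivity)
    have := grad_bound b (g := fun y => u (y + h) - u y)
      (g1 := fun y => fderiv ℝ u (y + h) - fderiv ℝ u y)
      (g2 := fun y => fderiv ℝ (fderiv ℝ u) (y + h) - fderiv ℝ (fderiv ℝ u) y)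
      (fun y => ((hasFDerivAt_comp_add_right h).2 (hu1 (y + h))).sub (hu1 y))
      (fun y => ((hasFDerivAt_comp_add_right h).2 (hu2 (y + h))).sub (hu2 y)) hA hB x a
    simp only [sub_apply] at this
    refine this.trans (le_of_eq ?_)
    rw [hM2, hn]; ring
  have second : ∀ x a c, |hs u x a c| ≤ M2 * ‖a‖ * ‖c‖ := by
    intro x a c
    refine abs_snd_le hu2 (by positivity) x a c fun s => ?_
    refine (hd1 (s • a) x c).trans (le_of_eq ?_)
    rw [norm_smul, Real.norm_eq_abs]; ring
  set M3 : ℝ := 2 * n * (M2 * n + (2 * M2 + 6 * M1 ^ 2)) with hM3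
  have hM30 : 0 ≤ M3 := by positivity
  have hd2 : ∀ h k x a, |(fderiv ℝ u (x + k + h) a - fderiv ℝ u (x + k) a)
      - (fderiv ℝ u (x + h) a - fderiv ℝ u x a)| ≤ M3 * ‖h‖ * ‖k‖ * ‖a‖ := by
    intro h k x a
    set v : E → ℝ := fun y => u (y + h) - u y with hv
    set v1 : E → (E →L[ℝ] ℝ) := fun y => fderiv ℝ u (y + h) - fderiv ℝ u y with hv1
    set v2 : E → (E →L[ℝ] E →L[ℝ] ℝ) :=
      fun y => fderiv ℝ (fderiv ℝ u) (y + h) - fderiv ℝ (fderiv ℝ u) y with hv2
    have hvd : ∀ y, HasFDerivAt v (v1 y) y :=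
      fun y => ((hasFDerivAt_comp_add_right h).2 (hu1 (y + h))).sub (hu1 y)
    have hvd2 : ∀ y, HasFDerivAt v1 (v2 y) y :=
      fun y => ((hasFDerivAt_comp_add_right h).2 (hu2 (y + h))).sub (hu2 y)
    have hv1b : ∀ y c, |v1 y c| ≤ M2 * ‖h‖ * ‖c‖ := fun y c => by
      simpa [hv1] using hd1 h y c
    have hA : ∀ y, |v (y + k) - v y| ≤ M2 * ‖h‖ * ‖k‖ := fun y => by
      simpa using diff_bound hvd (by positivity) hv1b y (y + k)
    have hB : ∀ y, |∑ i, (v2 (y + k) - v2 y) (b i) (b i)|
        ≤ (2 * M2 + 6 * M1 ^ 2) * (‖h‖ * ‖k‖) := by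
      intro y
      simp only [hv2, sub_apply, Finset.sum_sub_distrib, hlap]
      set p := u (y + k + h)
      set q := u (y + k)
      set r := u (y + h)
      set w := u y
      have e : acF p - acF q - (acF r - acF w)
          = ((p - q) - (r - w)) * acP p q + (r - w) * (acP p q - acP r w) := by
        rw [acF_sub, acF_sub]; ring
      rw [e]
      have h1 : |((p - q) - (r - w)) * acP p q| ≤ M2 * ‖h‖ * ‖k‖ * 2 := by
        rw [abs_mul]
        exact mul_le_mul (hA y) (acP_bound (hu.bound _) (hu.bound _)) (abs_nonneg _)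
          (by positivity)
      have h2 : |(r - w) * (acP p q - acP r w)| ≤ M1 * ‖h‖ * (6 * (M1 * ‖k‖)) := by
        rw [abs_mul]
        refine mul_le_mul ?_ ?_ (abs_nonneg _) (by positivity)
        · simpa using hdu y (y + h)
        · refine (acP_sub (hu.bound _) (hu.bound _) (hu.bound _) (hu.bound _)).trans ?_
          have h3 : |p - r| ≤ M1 * ‖k‖ := by
            have := hdu (y + h) (y + k + h)
            rwa [show y + k + h - (y + h) = k by abel] at this
          have h4 : |q - w| ≤ M1 * ‖k‖ := by simpa using hdu y (y + k)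
          linarith
      refine (abs_add_le _ _).trans ((add_le_add h1 h2).trans (le_of_eq ?_))
      ring
    have := grad_bound b (g := fun y => v (y + k) - v y) (g1 := fun y => v1 (y + k) - v1 y)
      (g2 := fun y => v2 (y + k) - v2 y)
      (fun y => ((hasFDerivAt_comp_add_right k).2 (hvd (y + k))).sub (hvd y))
      (fun y => ((hasFDerivAt_comp_add_right k).2 (hvd2 (y + k))).sub (hvd2 y)) hA hB x a
    simp only [hv1, sub_apply] at this
    refine this.trans (le_of_eq ?_)
    rw [hM3, hn]; ring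
  have lip : ∀ x y a c, |hs u x a c - hs u y a c| ≤ M3 * ‖x - y‖ * ‖a‖ * ‖c‖ := by
    intro x y a c
    set h := x - y with hh
    have hx : x = y + h := by rw [hh]; abel
    have key := abs_snd_le (F := fun z => fderiv ℝ u (z + h) - fderiv ℝ u z)
      (F1 := fun z => fderiv ℝ (fderiv ℝ u) (z + h) - fderiv ℝ (fderiv ℝ u) z)
      (fun z => ((hasFDerivAt_comp_add_right h).2 (hu2 (z + h))).sub (hu2 z))
      (C := M3 * ‖h‖ * ‖a‖ * ‖c‖) (by positivity) y a c fun s => by
        simp only [sub_apply]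
        refine (hd2 h (s • a) y c).trans (le_of_eq ?_)
        rw [norm_smul, Real.norm_eq_abs]; ring
    simp only [sub_apply] at key
    rw [hx]
    exact key
  refine ⟨max M1 (max M2 M3), ?_⟩
  constructor
  · exact le_max_of_le_left hM10
  · exact fun x a => (first x a).trans
      (mul_le_mul_of_nonneg_right (le_max_left _ _) (norm_nonneg _))
  · exact fun x a c => (second x a c).trans <| by
      have : M2 ≤ max M1 (max M2 M3) := le_max_of_le_right (le_max_left _ _)
      gcongr
  · exact fun x y a c => (lip x y a c).trans <| by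
      have : M3 ≤ max M1 (max M2 M3) := le_max_of_le_right (le_max_right _ _)
      gcongr

/-- Limits of functions with uniformly Lipschitz derivatives: the derivatives converge to the
derivative of the limit. -/
theorem limit_deriv {F : ℝ → E → ℝ} {G : ℝ → E → (E →L[ℝ] ℝ)} {Finf : E → ℝ} {L : ℝ}
    (hF : ∀ t x, HasFDerivAt (F t) (G t x) x) (hL : 0 ≤ L)
    (hG : ∀ t x y a, |G t y a - G t x a| ≤ L * ‖y - x‖ * ‖a‖)
    (hlim : ∀ x, Tendsto (fun t => F t x) atTop (𝓝 (Finf x))) :
    ∃ D : E → (E →L[ℝ] ℝ), (∀ x, HasFDerivAt Finf (D x) x) ∧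
      ∀ x a, Tendsto (fun t => G t x a) atTop (𝓝 (D x a)) := by
  have taylor : ∀ t x a, |F t (x + a) - F t x - G t x a| ≤ L * ‖a‖ * ‖a‖ := by
    intro t x a
    have := (convex_closedBall x ‖a‖).norm_image_sub_le_of_norm_hasFDerivWithin_le'
      (C := L * ‖a‖) (φ := G t x) (fun z _ => (hF t z).hasFDerivWithinAt)
      (fun z hz => ContinuousLinearMap.opNorm_le_bound _ (by positivity) fun c => by
        rw [sub_apply, Real.norm_eq_abs]
        refine (hG t x z c).trans ?_
        have : ‖z - x‖ ≤ ‖a‖ := by simpa [dist_eq_norm] using hz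
        gcongr)
      (Metric.mem_closedBall_self (norm_nonneg a))
      (y := x + a) (by simp [dist_eq_norm])
    simpa using this
  have hex : ∀ x a, ∃ l, Tendsto (fun t => G t x a) atTop (𝓝 l) := by
    intro x a
    refine cauchySeq_tendsto_of_complete (Metric.cauchySeq_iff.2 fun ε hε => ?_)
    set s : ℝ := ε / (4 * (L * ‖a‖ * ‖a‖ + 1)) with hs
    have hs0 : 0 < s := by positivity
    have hq : ∀ t, |G t x a - (F t (x + s • a) - F t x) / s| ≤ ε / 4 := by
      intro t
      have h1 := taylor t x (s • a)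
      rw [map_smul, smul_eq_mul, norm_smul, Real.norm_eq_abs, abs_of_pos hs0] at h1
      have h2 : L * ‖a‖ * ‖a‖ * s ≤ ε / 4 := by
        rw [hs, ← mul_div_assoc, div_le_iff₀ (by positivity)]
        nlinarith
      have e : G t x a - (F t (x + s • a) - F t x) / s
          = -((F t (x + s • a) - F t x - s * G t x a) / s) := by
        field_simp; ring
      rw [e, abs_neg, abs_div, abs_of_pos hs0, div_le_iff₀ hs0]
      nlinarith
    have hc : CauchySeq fun t => (F t (x + s • a) - F t x) / s :=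
      (((hlim (x + s • a)).sub (hlim x)).div_const s).cauchySeq
    obtain ⟨N, hN⟩ := Metric.cauchySeq_iff.1 hc (ε / 4) (by positivity)
    refine ⟨N, fun m hm k hk => ?_⟩
    have h1 := hN m hm k hk
    rw [Real.dist_eq] at h1 ⊢
    have h2 := abs_le.1 (hq m)
    have h3 := abs_le.1 (hq k)
    have h4 := abs_lt.1 h1
    exact abs_lt.2 ⟨by linarith, by linarith⟩
  choose l hl using hex
  let Dl : E → (E →ₗ[ℝ] ℝ) := fun x =>
    { toFun := l x
      map_add' := fun a c => tendsto_nhds_unique (hl x (a + c)) <| by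
        simpa using (hl x a).add (hl x c)
      map_smul' := fun r a => tendsto_nhds_unique (hl x (r • a)) <| by
        simpa using (hl x a).const_mul r }
  refine ⟨fun x => LinearMap.toContinuousLinearMap (Dl x), fun x => ?_, fun x a => hl x a⟩
  rw [hasFDerivAt_iff_isLittleO_nhds_zero, Asymptotics.isLittleO_iff]
  intro c hc
  rw [Metric.eventually_nhds_iff]
  refine ⟨c / (L + 1), by positivity, fun a ha => ?_⟩
  rw [dist_zero_right] at ha
  rw [Real.norm_eq_abs]
  have hlin : |Finf (x + a) - Finf x - l x a| ≤ L * ‖a‖ * ‖a‖ :=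
    le_of_tendsto (((hlim (x + a)).sub (hlim x)).sub (hl x a)).abs
      (Eventually.of_forall fun t => taylor t x a)
  refine le_trans hlin ?_
  refine mul_le_mul_of_nonneg_right ?_ (norm_nonneg _)
  rw [lt_div_iff₀ (by positivity)] at ha
  nlinarith [norm_nonneg a]

/-- The translates of a monotone solution converge in `C^2` to a solution invariant along `e`. -/
theorem profile (b : OrthonormalBasis ι ℝ E) : ProfileSpec b := by
  intro u e M hu hM hpos
  have hu1 := hasFDerivAt_fst hu.smooth
  have hu2 := hasFDerivAt_snd hu.smooth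
  set ub : E → ℝ := fun x => ⨆ t : ℝ, u (x + t • e) with hub
  have hmono : ∀ x, Monotone fun t : ℝ => u (x + t • e) := fun x =>
    (strictMono_of_deriv_pos fun t => by
      rw [(line_hasDerivAt hu1 x e t).deriv]; exact hpos _).monotone
  have hval : ∀ x, Tendsto (fun t : ℝ => u (x + t • e)) atTop (𝓝 (ub x)) := fun x =>
    tendsto_atTop_ciSup (hmono x) ⟨1, by rintro _ ⟨t, rfl⟩; exact (abs_le.1 (hu.bound _)).2⟩
  obtain ⟨D, hD, hfirst⟩ := limit_deriv
    (F := fun t x => u (x + t • e)) (G := fun t x => fderiv ℝ u (x + t • e)) (Finf := ub)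
    (fun t x => (hasFDerivAt_comp_add_right (t • e)).2 (hu1 _)) hM.nonneg
    (fun t x y a => by
      have := diff_bound (g := fun z => fderiv ℝ u z a)
        (g1 := fun z => (ContinuousLinearMap.apply ℝ ℝ a).comp (fderiv ℝ (fderiv ℝ u) z))
        (fun z => (ContinuousLinearMap.apply ℝ ℝ a).hasFDerivAt.comp z (hu2 z))
        (C := M * ‖a‖) (mul_nonneg hM.nonneg (norm_nonneg _))
        (fun z c => (hM.second z c a).trans (le_of_eq (by ring))) (x + t • e) (y + t • e)
      rw [add_sub_add_right_eq_sub] at this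
      exact this.trans (le_of_eq (by ring)))
    hval
  have hex : ∀ c : E, ∃ H : E → (E →L[ℝ] ℝ), (∀ x, HasFDerivAt (fun y => D y c) (H x) x) ∧
      ∀ x a, Tendsto (fun t : ℝ => hs u (x + t • e) a c) atTop (𝓝 (H x a)) := fun c =>
    limit_deriv (F := fun t x => fderiv ℝ u (x + t • e) c)
      (G := fun t x => (ContinuousLinearMap.apply ℝ ℝ c).comp
        (fderiv ℝ (fderiv ℝ u) (x + t • e)))
      (L := M * ‖c‖)
      (fun t x => (ContinuousLinearMap.apply ℝ ℝ c).hasFDerivAt.comp x
        ((hasFDerivAt_comp_add_right (t • e)).2 (hu2 _)))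
      (mul_nonneg hM.nonneg (norm_nonneg _))
      (fun t x y a => by
        have := hM.lip (y + t • e) (x + t • e) a c
        rw [add_sub_add_right_eq_sub] at this
        exact this.trans (le_of_eq (by ring)))
      (fun x => hfirst x c)
  choose H hH hsecond using hex
  set D2 : E → (E →L[ℝ] E →L[ℝ] ℝ) :=
    fun x => ∑ i, (H (b i) x).smulRight (innerSL ℝ (b i)) with hD2
  have hexp : ∀ (φ : E →L[ℝ] ℝ) (c : E), φ c = ∑ i, φ (b i) * ⟪b i, c⟫ := fun φ c => by
    conv_lhs => rw [← b.sum_repr' c]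
    simp only [map_sum, map_smul, smul_eq_mul, mul_comm]
  have hDd : ∀ x, HasFDerivAt D (D2 x) x := by
    intro x
    have e1 : D = fun y => ∑ i, D y (b i) • innerSL ℝ (b i) := by
      funext y; ext c
      simp only [FunLike.coe_sum, Finset.sum_apply, smul_apply, innerSL_apply_apply,
        smul_eq_mul]
      exact hexp (D y) c
    rw [e1]
    exact HasFDerivAt.fun_sum fun i _ => (hH (b i) x).smul_const (innerSL ℝ (b i))
  have hfd : fderiv ℝ ub = D := funext fun x => (hD x).fderiv
  have hfd2 : fderiv ℝ (fderiv ℝ ub) = D2 := by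
    rw [hfd]; exact funext fun x => (hDd x).fderiv
  have hsec : ∀ x a c, Tendsto (fun t : ℝ => hs u (x + t • e) a c) atTop (𝓝 (hs ub x a c)) := by
    intro x a c
    have e2 : hs ub x a c = ∑ i, H (b i) x a * ⟪b i, c⟫ := by
      rw [hs, hfd2]
      simp only [hD2, FunLike.coe_sum, Finset.sum_apply,
        ContinuousLinearMap.smulRight_apply, smul_apply, innerSL_apply_apply, smul_eq_mul]
    have e3 : (fun t : ℝ => hs u (x + t • e) a c)
        = fun t => ∑ i, hs u (x + t • e) a (b i) * ⟪b i, c⟫ := funext fun t => hexp _ c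
    rw [e2, e3]
    exact tendsto_finsetSum _ fun i _ => (hsecond (b i) x a).mul_const _
  have hlip : ∀ x y a c, |hs ub x a c - hs ub y a c| ≤ M * ‖x - y‖ * ‖a‖ * ‖c‖ :=
    fun x y a c => le_of_tendsto ((hsec x a c).sub (hsec y a c)).abs
      (Eventually.of_forall fun t => by
        have := hM.lip (x + t • e) (y + t • e) a c
        rwa [add_sub_add_right_eq_sub] at this)
  have hcont : Continuous D2 := by
    have hl : LipschitzWith M.toNNReal D2 := LipschitzWith.of_dist_le_mul fun x y => by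
      rw [dist_eq_norm, dist_eq_norm, Real.coe_toNNReal M hM.nonneg]
      refine ContinuousLinearMap.opNorm_le_bound₂ _ (mul_nonneg hM.nonneg (norm_nonneg _))
        fun a c => ?_
      have := hlip x y a c
      simpa [hs, hfd2] using this
    exact hl.continuous
  have hC2 : ContDiff ℝ 2 ub := by
    rw [show (2 : WithTop ℕ∞) = 1 + 1 by norm_num, contDiff_succ_iff_fderiv]
    refine ⟨fun x => (hD x).differentiableAt, by simp, ?_⟩
    rw [hfd, contDiff_one_iff_fderiv]
    refine ⟨fun x => (hDd x).differentiableAt, ?_⟩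
    rw [← hfd, hfd2]
    exact hcont
  refine ⟨ub, ⟨hC2, ?_, ?_⟩, ⟨hM.nonneg, ?_, ?_, hlip⟩, ⟨hval, ?_, hsec, ?_⟩⟩
  · exact fun x => le_of_tendsto (hval x).abs (Eventually.of_forall fun t => hu.bound _)
  · intro x
    have hc : Continuous acF := by unfold acF; fun_prop
    refine tendsto_nhds_unique (tendsto_finsetSum _ fun i _ => hsec x (b i) (b i)) ?_
    simp only [hu.eqn]
    exact (hc.tendsto _).comp (hval x)
  · intro x a
    rw [hfd]
    exact le_of_tendsto (hfirst x a).abs (Eventually.of_forall fun t => hM.first _ a)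
  · exact fun x a c => le_of_tendsto (hsec x a c).abs
      (Eventually.of_forall fun t => hM.second _ a c)
  · rw [hfd]; exact hfirst
  · intro x s
    have h1 : Tendsto (fun t : ℝ => u (x + s • e + t • e)) atTop (𝓝 (ub x)) := by
      have := (hval x).comp (tendsto_atTop_add_const_left atTop s tendsto_id)
      refine this.congr fun t => ?_
      simp [add_smul, add_assoc]
    exact tendsto_nhds_unique (hval _) h1

end Vale.Agent.P134P
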