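import Vale.Agent.P134P.Liouville

/-! # P134: interfaces between the profile, energy and assembly modules -/

open scoped BigOperators RealInnerProductSpace
open Filter Topology MeasureTheory

namespace Vale.Agent.P134P

variable {E : Type*} [NormedAddCommGroup E] [InnerProductSpace ℝ E] [FiniteDimensional ℝ E]
  [MeasurableSpace E] [BorelSpace E]
  {ι : Type*} [Fintype ι] [DecidableEq ι]

/-- The standing hypotheses: three free directions `Sᶜ`, one of which is the monotone one `b i₀`,
and periods spanning the directions of `S`. -/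
structure Setup (b : OrthonormalBasis ι ℝ E) (S : Finset ι) (i₀ : ι) (τ : Fin S.card → E)
    (u : E → ℝ) (M : ℝ) (ub : E → ℝ) : Prop where
  free : i₀ ∉ S
  three : Sᶜ.card = 3
  indep : LinearIndependent ℝ τ
  perp : ∀ j, ∀ i ∉ S, ⟪b i, τ j⟫ = 0
  periodic : ∀ j x, u (x + τ j) = u x
  sol : IsSol b u
  reg : RegBd u M
  mono : ∀ x, 0 < fderiv ℝ u x (b i₀)
  profileSol : IsSol b ub
  profileReg : RegBd ub M
  profile : IsProfile u (b i₀) ub

/-- The energy density of the profile is dominated by one directional derivative. -/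
def Front (b : OrthonormalBasis ι ℝ E) (ub : E → ℝ) (M : ℝ) : Prop :=
  ∃ a : E, ‖a‖ ≤ 1 ∧ ∀ x, edens b ub x ≤ M * fderiv ℝ ub x a

/-- Interface of the profile classification. -/
def FrontSpec (b : OrthonormalBasis ι ℝ E) : Prop :=
  ∀ (S : Finset ι) (i₀ : ι) (τ : Fin S.card → E) (u : E → ℝ) (M : ℝ) (ub : E → ℝ),
    Setup b S i₀ τ u M ub → Front b ub M

/-- Interface of the energy module. -/
def EnergySpec (b : OrthonormalBasis ι ℝ E) : Prop :=
  ∀ (S : Finset ι) (i₀ : ι) (τ : Fin S.card → E) (u : E → ℝ) (M : ℝ) (ub : E → ℝ),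
    Setup b S i₀ τ u M ub → Front b ub M →
      ∃ C, 0 ≤ C ∧ ∀ p, BoxBound b p S (gsq b u) C

end Vale.Agent.P134P
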